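import Mathlib

/-!
P090: the l1-valued Poincare inequality and the numeric contradiction.
-/

namespace Vale.Agent.P090

open Finset

/-- The Poincare inequality with constant ten for right translations by three elements. -/
def HasGap {G : Type*} [Group G] [Fintype G] (x : Fin 3 → G) : Prop :=
  ∀ f : G → ℝ, ∑ g, (f g - (∑ h, f h) / Fintype.card G) ^ 2 ≤
    10 * ∑ j, ∑ g, (f (g * x j) - f g) ^ 2

namespace Numeric

/-- The signed square root. -/
noncomputable def ssq (t : ℝ) : ℝ := if 0 ≤ t then Real.sqrt t else -Real.sqrt (-t)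

theorem ssq_sq (t : ℝ) : ssq t ^ 2 = |t| := by
  unfold ssq
  split_ifs with h
  · rw [Real.sq_sqrt h, abs_of_nonneg h]
  · rw [neg_sq, Real.sq_sqrt (by linarith), abs_of_neg (by linarith)]

theorem ssq_sub_sq_le (a b : ℝ) : (ssq a - ssq b) ^ 2 ≤ 2 * |a - b| := by
  unfold ssq
  split_ifs with ha hb hb
  · -- both nonnegative
    have h1 := Real.sq_sqrt ha
    have h2 := Real.sq_sqrt hb
    have h3 := Real.sqrt_nonneg a
    have h4 := Real.sqrt_nonneg b
    set u := Real.sqrt a
    set v := Real.sqrt b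
    rw [← h1, ← h2]
    rcases abs_cases (u ^ 2 - v ^ 2) with ⟨h, h'⟩ | ⟨h, h'⟩
    · rw [h]
      have : v ≤ u := by nlinarith
      nlinarith [mul_nonneg h4 (sub_nonneg.2 this), mul_nonneg h3 (sub_nonneg.2 this)]
    · rw [h]
      have : u ≤ v := by nlinarith
      nlinarith [mul_nonneg h4 (sub_nonneg.2 this), mul_nonneg h3 (sub_nonneg.2 this)]
  · have hb' : 0 ≤ -b := by linarith
    have h1 := Real.sq_sqrt ha
    have h2 := Real.sq_sqrt hb'
    rw [abs_of_nonneg (by linarith)]
    nlinarith [sq_nonneg (Real.sqrt a - Real.sqrt (-b))]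
  · have ha' : 0 ≤ -a := by linarith
    have h1 := Real.sq_sqrt ha'
    have h2 := Real.sq_sqrt hb
    rw [abs_of_nonpos (by linarith)]
    nlinarith [sq_nonneg (Real.sqrt (-a) - Real.sqrt b)]
  · have ha' : 0 ≤ -a := by linarith
    have hb' : 0 ≤ -b := by linarith
    have h1 := Real.sq_sqrt ha'
    have h2 := Real.sq_sqrt hb'
    have h3 := Real.sqrt_nonneg (-a)
    have h4 := Real.sqrt_nonneg (-b)
    have e : a - b = -(Real.sqrt (-a) ^ 2 - Real.sqrt (-b) ^ 2) := by rw [h1, h2]; ring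
    rw [e, abs_neg]
    set u := Real.sqrt (-a)
    set v := Real.sqrt (-b)
    rcases abs_cases (u ^ 2 - v ^ 2) with ⟨h, h'⟩ | ⟨h, h'⟩
    · rw [h]
      have : v ≤ u := by nlinarith
      nlinarith [mul_nonneg h4 (sub_nonneg.2 this), mul_nonneg h3 (sub_nonneg.2 this)]
    · rw [h]
      have : u ≤ v := by nlinarith
      nlinarith [mul_nonneg h4 (sub_nonneg.2 this), mul_nonneg h3 (sub_nonneg.2 this)]

theorem abs_sub_le_ssq (a b : ℝ) : |a - b| ≤ (|ssq a| + |ssq b|) * |ssq a - ssq b| := by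
  have key : ∀ u v : ℝ, |(u * |u| - v * |v|)| ≤ (|u| + |v|) * |u - v| := by
    intro u v
    have h : u * |u| - v * |v| = (|u| * (u - v)) + v * (|u| - |v|) := by ring
    rw [h]
    calc |(|u| * (u - v)) + v * (|u| - |v|)| ≤ |(|u| * (u - v))| + |v * (|u| - |v|)| :=
          abs_add_le _ _
      _ = |u| * |u - v| + |v| * |(|u| - |v|)| := by rw [abs_mul, abs_mul, abs_abs]
      _ ≤ |u| * |u - v| + |v| * |u - v| :=
          add_le_add (le_refl _)
            (mul_le_mul_of_nonneg_left (abs_abs_sub_abs_le u v) (abs_nonneg _))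
      _ = (|u| + |v|) * |u - v| := by ring
  have hs : ∀ t : ℝ, ssq t * |ssq t| = t := by
    intro t
    unfold ssq
    split_ifs with h
    · rw [abs_of_nonneg (Real.sqrt_nonneg _), Real.mul_self_sqrt h]
    · rw [abs_neg, abs_of_nonneg (Real.sqrt_nonneg _), neg_mul,
        Real.mul_self_sqrt (by linarith)]
      ring
  have := key (ssq a) (ssq b)
  rwa [hs, hs] at this

/-- Variance identity. -/
theorem sum_sum_sub_sq {G : Type*} [Fintype G] [Nonempty G] (f : G → ℝ) :
    ∑ g, ∑ h, (f g - f h) ^ 2 =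
      2 * Fintype.card G * ∑ g, (f g - (∑ h, f h) / Fintype.card G) ^ 2 := by
  have hn : (Fintype.card G : ℝ) ≠ 0 := by
    exact_mod_cast Fintype.card_ne_zero
  set n : ℝ := (Fintype.card G : ℝ) with hnd
  set S := ∑ h, f h with hS
  set A := ∑ h, f h ^ 2 with hA
  have e1 : ∑ g, ∑ h, (f g - f h) ^ 2 = 2 * n * A - 2 * S ^ 2 := by
    have : ∀ g, ∑ h, (f g - f h) ^ 2 = n * f g ^ 2 - 2 * f g * S + A := by
      intro g
      have : ∀ h, (f g - f h) ^ 2 = f g ^ 2 - 2 * f g * f h + f h ^ 2 := by intro h; ring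
      simp_rw [this]
      rw [sum_add_distrib, sum_sub_distrib, sum_const, ← mul_sum, card_univ, nsmul_eq_mul]
    simp_rw [this]
    rw [sum_add_distrib, sum_sub_distrib, ← mul_sum, sum_const, card_univ, nsmul_eq_mul]
    have : ∑ x, 2 * f x * S = 2 * S * S := by
      rw [← sum_mul, ← mul_sum]
    rw [this]; ring
  have e2 : ∑ g, (f g - S / n) ^ 2 = A - S ^ 2 / n := by
    have : ∀ g, (f g - S / n) ^ 2 = f g ^ 2 - 2 * (S / n) * f g + (S / n) ^ 2 := by
      intro g; ring
    simp_rw [this]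
    rw [sum_add_distrib, sum_sub_distrib, ← mul_sum, sum_const, card_univ, nsmul_eq_mul]
    rw [← hS, ← hA, ← hnd]
    field_simp
    ring
  rw [e1, e2]
  field_simp

end Numeric

open Numeric

theorem l1_poincare {G : Type*} [Group G] [Fintype G] (x : Fin 3 → G) (hgap : HasGap x)
    {ι : Type*} [Fintype ι] (W : ι → G → ℝ) (B ε : ℝ)
    (hB : ∀ g, ∑ l, |W l g| ≤ B)
    (hε : ∀ g j, ∑ l, |W l (g * x j) - W l g| ≤ ε) :
    ∑ g, ∑ l, |W l g - (∑ h, W l h) / Fintype.card G| ≤
      Fintype.card G * Real.sqrt (480 * B * ε) := by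
  have hn : (0 : ℝ) < Fintype.card G := by exact_mod_cast Fintype.card_pos
  set n : ℝ := (Fintype.card G : ℝ) with hnd
  have hB0 : 0 ≤ B := le_trans (sum_nonneg fun l _ => abs_nonneg _) (hB 1)
  have hε0 : 0 ≤ ε := le_trans (sum_nonneg fun l _ => abs_nonneg _) (hε 1 0)
  -- gap for signed square roots
  have h1 : ∑ l, ∑ g, (ssq (W l g) - (∑ h, ssq (W l h)) / n) ^ 2 ≤ 60 * ε * n := by
    calc ∑ l, ∑ g, (ssq (W l g) - (∑ h, ssq (W l h)) / n) ^ 2
        ≤ ∑ l, 10 * ∑ j, ∑ g, (ssq (W l (g * x j)) - ssq (W l g)) ^ 2 :=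
          sum_le_sum fun l _ => hgap (fun g => ssq (W l g))
      _ ≤ ∑ l, 10 * ∑ j, ∑ g, 2 * |W l (g * x j) - W l g| := by
          gcongr with l _ j _ g _
          exact ssq_sub_sq_le _ _
      _ = 20 * ∑ j, ∑ g, ∑ l, |W l (g * x j) - W l g| := by
          rw [← mul_sum, sum_comm]
          simp_rw [← mul_sum]
          rw [← mul_assoc]
          norm_num
          apply sum_congr rfl
          intro j _
          rw [sum_comm]
      _ ≤ 20 * ∑ _j : Fin 3, ∑ _g : G, ε := by
          gcongr with j _ g _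
          exact hε g j
      _ = 60 * ε * n := by
          simp only [sum_const, card_univ, nsmul_eq_mul, Fintype.card_fin]
          rw [← hnd]; push_cast; ring
  have h2 : ∑ l, ∑ g, ∑ h, (ssq (W l g) - ssq (W l h)) ^ 2 ≤ 120 * ε * n ^ 2 := by
    calc ∑ l, ∑ g, ∑ h, (ssq (W l g) - ssq (W l h)) ^ 2
        = ∑ l, 2 * n * ∑ g, (ssq (W l g) - (∑ h, ssq (W l h)) / n) ^ 2 :=
          sum_congr rfl fun l _ => sum_sum_sub_sq (fun g => ssq (W l g))
      _ = 2 * n * ∑ l, ∑ g, (ssq (W l g) - (∑ h, ssq (W l h)) / n) ^ 2 := by rw [mul_sum]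
      _ ≤ 2 * n * (60 * ε * n) := by gcongr
      _ = 120 * ε * n ^ 2 := by ring
  have h3 : ∑ l, ∑ g, ∑ h, (|ssq (W l g)| + |ssq (W l h)|) ^ 2 ≤ 4 * B * n ^ 2 := by
    calc ∑ l, ∑ g, ∑ h, (|ssq (W l g)| + |ssq (W l h)|) ^ 2
        ≤ ∑ l, ∑ g, ∑ h, (2 * |W l g| + 2 * |W l h|) := by
          gcongr with l _ g _ h _
          have a1 := ssq_sq (W l g)
          have a2 := ssq_sq (W l h)
          rw [← sq_abs] at a1 a2
          nlinarith [sq_nonneg (|ssq (W l g)| - |ssq (W l h)|)]
      _ = 4 * n * ∑ g, ∑ l, |W l g| := by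
          have : ∀ l, ∑ g, ∑ h, (2 * |W l g| + 2 * |W l h|) = 4 * n * ∑ g, |W l g| := by
            intro l
            simp only [sum_add_distrib, sum_const, card_univ, nsmul_eq_mul, ← mul_sum]
            rw [← hnd]; ring
          simp_rw [this]
          rw [← mul_sum, sum_comm]
      _ ≤ 4 * n * ∑ _g : G, B := by
          gcongr with g _
          exact hB g
      _ = 4 * B * n ^ 2 := by
          simp only [sum_const, card_univ, nsmul_eq_mul]
          rw [← hnd]; ring
  -- Cauchy-Schwarz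
  have h4 : ∑ l, ∑ g, ∑ h, |W l g - W l h| ≤ n ^ 2 * Real.sqrt (480 * B * ε) := by
    have hcs : (∑ p : ι × G × G, (|ssq (W p.1 p.2.1)| + |ssq (W p.1 p.2.2)|) *
        |ssq (W p.1 p.2.1) - ssq (W p.1 p.2.2)|) ^ 2 ≤
        (∑ p : ι × G × G, (|ssq (W p.1 p.2.1)| + |ssq (W p.1 p.2.2)|) ^ 2) *
        ∑ p : ι × G × G, |ssq (W p.1 p.2.1) - ssq (W p.1 p.2.2)| ^ 2 :=
      sum_mul_sq_le_sq_mul_sq _ _ _
    simp only [Fintype.sum_prod_type, sq_abs] at hcs
    have hle : ∑ l, ∑ g, ∑ h, |W l g - W l h| ≤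
        ∑ l, ∑ g, ∑ h, (|ssq (W l g)| + |ssq (W l h)|) * |ssq (W l g) - ssq (W l h)| := by
      gcongr with l _ g _ h _
      exact abs_sub_le_ssq _ _
    have h0 : 0 ≤ ∑ l, ∑ g, ∑ h, |W l g - W l h| :=
      sum_nonneg fun l _ => sum_nonneg fun g _ => sum_nonneg fun h _ => abs_nonneg _
    have h5 : (∑ l, ∑ g, ∑ h, |W l g - W l h|) ^ 2 ≤ (4 * B * n ^ 2) * (120 * ε * n ^ 2) := by
      calc (∑ l, ∑ g, ∑ h, |W l g - W l h|) ^ 2
          ≤ (∑ l, ∑ g, ∑ h, (|ssq (W l g)| + |ssq (W l h)|) *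
              |ssq (W l g) - ssq (W l h)|) ^ 2 := pow_le_pow_left₀ h0 hle 2
        _ ≤ _ := hcs
        _ ≤ _ := by
            apply mul_le_mul h3 h2
            · exact sum_nonneg fun l _ => sum_nonneg fun g _ => sum_nonneg fun h _ => sq_nonneg _
            · positivity
    have h6 : n ^ 2 * Real.sqrt (480 * B * ε) = Real.sqrt ((4 * B * n ^ 2) * (120 * ε * n ^ 2)) := by
      have e : (4 * B * n ^ 2) * (120 * ε * n ^ 2) = (n ^ 2) ^ 2 * (480 * B * ε) := by ring
      rw [e, Real.sqrt_mul (by positivity : (0 : ℝ) ≤ (n ^ 2) ^ 2) (480 * B * ε),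
        Real.sqrt_sq (by positivity : (0 : ℝ) ≤ n ^ 2)]
    rw [h6]
    exact Real.le_sqrt_of_sq_le h5
  -- averages
  have h7 : ∀ l g, |W l g - (∑ h, W l h) / n| ≤ (∑ h, |W l g - W l h|) / n := by
    intro l g
    have e : W l g - (∑ h, W l h) / n = (∑ h, (W l g - W l h)) / n := by
      rw [sum_sub_distrib, sum_const, card_univ, nsmul_eq_mul, ← hnd]
      field_simp
    rw [e, abs_div, abs_of_pos hn]
    gcongr
    exact abs_sum_le_sum_abs _ _
  calc ∑ g, ∑ l, |W l g - (∑ h, W l h) / n|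
      ≤ ∑ g, ∑ l, (∑ h, |W l g - W l h|) / n := by
        gcongr with g _ l _
        exact h7 l g
    _ = (∑ l, ∑ g, ∑ h, |W l g - W l h|) / n := by
        rw [sum_comm, sum_div]
        apply sum_congr rfl
        intro l _
        rw [sum_div]
    _ ≤ (n ^ 2 * Real.sqrt (480 * B * ε)) / n := by gcongr
    _ = n * Real.sqrt (480 * B * ε) := by field_simp


/-- The sign of a lamp configuration `θ` at the lamp `b`. -/
noncomputable def lampSign {Q : Type*} [DecidableEq Q] (b : Q) (θ : Finset Q) : ℝ :=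
  if b ∈ θ then -1 else 1

namespace Numeric

theorem abs_lampSign {Q : Type*} [DecidableEq Q] (b : Q) (θ : Finset Q) :
    |lampSign b θ| = 1 := by
  unfold lampSign
  split_ifs <;> simp

theorem lampSign_symmDiff {Q : Type*} [DecidableEq Q] (b : Q) (θ : Finset Q) :
    lampSign b (symmDiff θ {b}) = -lampSign b θ := by
  unfold lampSign
  by_cases h : b ∈ θ <;> simp [Finset.mem_symmDiff, h]

/-- Summation over all lamp configurations of a flipped function. -/
theorem sum_flip {Q : Type*} [Fintype Q] [DecidableEq Q] (b : Q) (f : Finset Q → ℝ) :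
    ∑ θ : Finset Q, lampSign b θ * f (symmDiff θ {b}) = -∑ θ : Finset Q, lampSign b θ * f θ := by
  have hinv : Function.Involutive (fun θ : Finset Q => symmDiff θ {b}) := by
    intro θ
    simp
  rw [← sum_neg_distrib]
  refine Fintype.sum_bijective (fun θ : Finset Q => symmDiff θ {b}) hinv.bijective _ _ ?_
  intro θ
  rw [lampSign_symmDiff]
  ring

end Numeric

theorem numeric_contradiction {G Q Lam T : Type*} [Group G] [Fintype G]
    [Fintype Q] [DecidableEq Q] [Nonempty Q] [Fintype Lam] [Fintype T]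
    (x : Fin 3 → G) (hgap : HasGap x) (p : G → Q)
    (W : Finset Q → Lam → G → ℝ) (V : Finset Q → T → G → ℝ)
    (th : Lam → Finset Q) (fr : Lam → G → Prop) (Y : Finset G)
    (s : Finset Q → Q → T → G → ℝ) (far : Q → G → Prop)
    (BW BV εW εV εa β : ℝ)
    (hW1 : ∀ θ g, ∑ l, |W θ l g| ≤ BW)
    (hW2 : ∀ θ g j, ∑ l, |W θ l (g * x j) - W θ l g| ≤ εW)
    (hV1 : ∀ θ g, ∑ t, |V θ t g| ≤ BV)
    (hV2 : ∀ θ g j, ∑ t, |V θ t (g * x j) - V θ t g| ≤ εV)
    (hs1 : ∀ θ b t g, |s θ b t g| ≤ 1)
    (hs2 : ∀ θ b t, ∑ g, |s θ b t g| ≤ β * Fintype.card G)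
    (hfar : ∀ b, (Nat.card {g : G // ¬ far b g} : ℝ) ≤ β * Fintype.card G)
    (hβ : β ≤ 1 / 2)
    (h4 : ∀ θ b g, far b g →
      |∑ l, lampSign b θ * lampSign b (th l) * W θ l g + ∑ t, s θ b t g * V θ t g - 1| ≤ εa)
    (h5 : ∀ θ, ∀ g ∈ Y, ∀ F : Finset Lam, (∀ l, l ∈ F ↔ fr l g) →
      ∑ l ∈ F, lampSign (p g) θ * lampSign (p g) (th l) *
        (W θ l g - W (symmDiff θ {p g}) l g) ≤ 1 / 4)
    (hY : 5 * Y.card = Fintype.card G)
    (heq : ∀ l a, 5 * Fintype.card Q * Nat.card {g : G // g ∈ Y ∧ p g = a ∧ fr l g}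
      = 4 * Y.card)
    (hn1 : Real.sqrt (480 * BW * εW) ≤ 1 / 25)
    (hn2 : εa + 2 * (Real.sqrt (480 * BV * εV) + BV * β + Real.sqrt (480 * BW * εW)) ≤ 1 / 2) :
    False := by
  classical
  have hn : (0 : ℝ) < Fintype.card G := by exact_mod_cast Fintype.card_pos
  set n : ℝ := (Fintype.card G : ℝ) with hnd
  set e7 := Real.sqrt (480 * BW * εW) with he7
  set e8 := Real.sqrt (480 * BV * εV) with he8
  have he70 : 0 ≤ e7 := Real.sqrt_nonneg _
  have he80 : 0 ≤ e8 := Real.sqrt_nonneg _
  have hBV0 : 0 ≤ BV := le_trans (sum_nonneg fun l _ => abs_nonneg _) (hV1 ∅ 1)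
  have hβ0 : 0 ≤ β := by
    have hb := hfar (Classical.arbitrary Q)
    have h0 : (0 : ℝ) ≤ (Nat.card {g : G // ¬ far (Classical.arbitrary Q) g} : ℝ) :=
      Nat.cast_nonneg _
    by_contra hc
    push Not at hc
    nlinarith
  -- averages
  let cW : Finset Q → Lam → ℝ := fun θ l => (∑ h, W θ l h) / n
  let cV : Finset Q → T → ℝ := fun θ t => (∑ h, V θ t h) / n
  have hPW : ∀ θ, ∑ g, ∑ l, |W θ l g - cW θ l| ≤ n * e7 := fun θ =>
    l1_poincare x hgap (W θ) BW εW (hW1 θ) (hW2 θ)
  have hPV : ∀ θ, ∑ g, ∑ t, |V θ t g - cV θ t| ≤ n * e8 := fun θ =>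
    l1_poincare x hgap (V θ) BV εV (hV1 θ) (hV2 θ)
  have hcV : ∀ θ, ∑ t, |cV θ t| ≤ BV := by
    intro θ
    calc ∑ t, |cV θ t| ≤ ∑ t, (∑ h, |V θ t h|) / n := by
          gcongr with t _
          show |(∑ h, V θ t h) / n| ≤ _
          rw [abs_div, abs_of_pos hn]
          gcongr
          exact abs_sum_le_sum_abs _ _
      _ = (∑ h, ∑ t, |V θ t h|) / n := by rw [← sum_div, sum_comm]
      _ ≤ (∑ _h : G, BV) / n := by
          gcongr with h _
          exact hV1 θ h
      _ = BV := by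
          rw [sum_const, card_univ, nsmul_eq_mul, ← hnd]
          field_simp
  -- the main sums
  let S : Finset Q → Q → ℝ := fun θ b => ∑ l, lampSign b θ * lampSign b (th l) * cW θ l
  have hS : ∀ θ b, 1 / 2 ≤ S θ b := by
    intro θ b
    let A : Finset G := univ.filter (fun g => far b g)
    have hAc : (n / 2 : ℝ) ≤ (A.card : ℝ) := by
      have h1 : (A.card : ℝ) + (Nat.card {g : G // ¬ far b g} : ℝ) = n := by
        rw [Nat.card_eq_fintype_card, Fintype.card_subtype, hnd]
        have := Finset.card_filter_add_card_filter_not (s := (univ : Finset G))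
          (p := fun g => far b g)
        rw [card_univ] at this
        exact_mod_cast this
      have h2 := hfar b
      nlinarith
    have hApos : (0 : ℝ) < A.card := by linarith
    -- sum over far elements
    have hsum : (A.card : ℝ) * (1 - εa) ≤ (A.card : ℝ) * S θ b + n * (e7 + e8 + BV * β) := by
      have hterm : ∀ g ∈ A, (1 - εa : ℝ) ≤ S θ b + ∑ l, |W θ l g - cW θ l| +
          (∑ t, |V θ t g - cV θ t| + ∑ t, |s θ b t g| * |cV θ t|) := by
        intro g hg
        have hg' : far b g := (mem_filter.1 hg).2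
        have h4' := (abs_le.1 (h4 θ b g hg')).1
        have hw : ∑ l, lampSign b θ * lampSign b (th l) * W θ l g ≤
            S θ b + ∑ l, |W θ l g - cW θ l| := by
          show _ ≤ ∑ l, lampSign b θ * lampSign b (th l) * cW θ l + _
          rw [← sum_add_distrib]
          apply sum_le_sum
          intro l _
          have : lampSign b θ * lampSign b (th l) * (W θ l g - cW θ l) ≤ |W θ l g - cW θ l| := by
            calc _ ≤ |lampSign b θ * lampSign b (th l) * (W θ l g - cW θ l)| := le_abs_self _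
              _ = |W θ l g - cW θ l| := by
                rw [abs_mul, abs_mul, abs_lampSign, abs_lampSign]; ring
          linarith
        have hv : ∑ t, s θ b t g * V θ t g ≤
            ∑ t, |V θ t g - cV θ t| + ∑ t, |s θ b t g| * |cV θ t| := by
          rw [← sum_add_distrib]
          apply sum_le_sum
          intro t _
          have e : s θ b t g * V θ t g = s θ b t g * (V θ t g - cV θ t) + s θ b t g * cV θ t := by
            ring
          rw [e]
          apply add_le_add
          · calc _ ≤ |s θ b t g * (V θ t g - cV θ t)| := le_abs_self _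
              _ = |s θ b t g| * |V θ t g - cV θ t| := abs_mul _ _
              _ ≤ 1 * |V θ t g - cV θ t| := by
                  gcongr
                  exact hs1 θ b t g
              _ = _ := one_mul _
          · calc _ ≤ |s θ b t g * cV θ t| := le_abs_self _
              _ = _ := abs_mul _ _
        linarith
      have h1 := sum_le_sum hterm
      rw [sum_const, nsmul_eq_mul, sum_add_distrib, sum_add_distrib, sum_const, nsmul_eq_mul,
        sum_add_distrib] at h1
      have b1 : ∑ g ∈ A, ∑ l, |W θ l g - cW θ l| ≤ n * e7 :=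
        (sum_le_sum_of_subset_of_nonneg (subset_univ _)
          (fun g _ _ => sum_nonneg fun l _ => abs_nonneg _)).trans (hPW θ)
      have b2 : ∑ g ∈ A, ∑ t, |V θ t g - cV θ t| ≤ n * e8 :=
        (sum_le_sum_of_subset_of_nonneg (subset_univ _)
          (fun g _ _ => sum_nonneg fun l _ => abs_nonneg _)).trans (hPV θ)
      have b3 : ∑ g ∈ A, ∑ t, |s θ b t g| * |cV θ t| ≤ n * (BV * β) := by
        calc ∑ g ∈ A, ∑ t, |s θ b t g| * |cV θ t|
            ≤ ∑ g, ∑ t, |s θ b t g| * |cV θ t| :=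
              sum_le_sum_of_subset_of_nonneg (subset_univ _)
                (fun g _ _ => sum_nonneg fun l _ => mul_nonneg (abs_nonneg _) (abs_nonneg _))
          _ = ∑ t, (∑ g, |s θ b t g|) * |cV θ t| := by
              rw [sum_comm]
              apply sum_congr rfl
              intro t _
              rw [sum_mul]
          _ ≤ ∑ t, (β * n) * |cV θ t| := by
              gcongr with t _
              exact hs2 θ b t
          _ = (β * n) * ∑ t, |cV θ t| := by rw [mul_sum]
          _ ≤ (β * n) * BV := by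
              gcongr
              exact hcV θ
          _ = n * (BV * β) := by ring
      linarith
    -- divide
    by_contra hc
    push Not at hc
    have hE : 0 ≤ e7 + e8 + BV * β := by positivity
    have h6 : n * (e7 + e8 + BV * β) ≤ (A.card : ℝ) * (2 * (e7 + e8 + BV * β)) := by
      nlinarith
    have h7 : (A.card : ℝ) * (1 - εa) ≤
        (A.card : ℝ) * (S θ b + 2 * (e7 + e8 + BV * β)) := by linarith
    have h8 : 1 - εa ≤ S θ b + 2 * (e7 + e8 + BV * β) := le_of_mul_le_mul_left h7 hApos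
    linarith
  -- step 2
  let Fr : G → Finset Lam := fun g => univ.filter (fun l => fr l g)
  have hYpos : (0 : ℝ) < Y.card := by
    have : (5 * Y.card : ℝ) = n := by rw [hnd]; exact_mod_cast hY
    linarith
  have hYn : n = 5 * (Y.card : ℝ) := by rw [hnd]; exact_mod_cast hY.symm
  set Θ : ℝ := (Fintype.card (Finset Q) : ℝ) with hΘ
  have hΘpos : 0 < Θ := by
    rw [hΘ]
    exact_mod_cast Fintype.card_pos
  let Z : ℝ := ∑ θ : Finset Q, ∑ g ∈ Y, ∑ l ∈ Fr g,
    lampSign (p g) θ * lampSign (p g) (th l) * W θ l g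
  have hZ : 2 * Z ≤ Θ * Y.card / 4 := by
    have h1 : ∑ θ : Finset Q, ∑ g ∈ Y, ∑ l ∈ Fr g, lampSign (p g) θ * lampSign (p g) (th l) *
        (W θ l g - W (symmDiff θ {p g}) l g) ≤ ∑ _θ : Finset Q, ∑ _g ∈ Y, (1 / 4 : ℝ) := by
      apply sum_le_sum
      intro θ _
      apply sum_le_sum
      intro g hg
      exact h5 θ g hg (Fr g) (by intro l; simp [Fr])
    have h2 : ∑ θ : Finset Q, ∑ g ∈ Y, ∑ l ∈ Fr g, lampSign (p g) θ * lampSign (p g) (th l) *
        (W θ l g - W (symmDiff θ {p g}) l g) = 2 * Z := by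
      have e1 : ∀ g l, ∑ θ : Finset Q, lampSign (p g) θ * lampSign (p g) (th l) *
          (W θ l g - W (symmDiff θ {p g}) l g) =
          2 * ∑ θ : Finset Q, lampSign (p g) θ * lampSign (p g) (th l) * W θ l g := by
        intro g l
        have e2 := sum_flip (p g) (fun θ => lampSign (p g) (th l) * W θ l g)
        have e3 : ∑ θ : Finset Q, lampSign (p g) θ * lampSign (p g) (th l) *
            (W θ l g - W (symmDiff θ {p g}) l g) =
            ∑ θ : Finset Q, lampSign (p g) θ * (lampSign (p g) (th l) * W θ l g) -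
            ∑ θ : Finset Q, lampSign (p g) θ *
              (lampSign (p g) (th l) * W (symmDiff θ {p g}) l g) := by
          rw [← sum_sub_distrib]
          apply sum_congr rfl
          intro θ _
          ring
        rw [e3, e2, sub_neg_eq_add, ← two_mul]
        congr 1
        apply sum_congr rfl
        intro θ _
        ring
      rw [sum_comm]
      have e4 : ∀ g ∈ Y, ∑ θ : Finset Q, ∑ l ∈ Fr g, lampSign (p g) θ * lampSign (p g) (th l) *
          (W θ l g - W (symmDiff θ {p g}) l g) =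
          2 * ∑ θ : Finset Q, ∑ l ∈ Fr g,
            lampSign (p g) θ * lampSign (p g) (th l) * W θ l g := by
        intro g _
        rw [sum_comm, sum_congr rfl (fun l _ => e1 g l), ← mul_sum, sum_comm]
      rw [sum_congr rfl e4, ← mul_sum]
      show _ = 2 * ∑ θ : Finset Q, ∑ g ∈ Y, ∑ l ∈ Fr g,
        lampSign (p g) θ * lampSign (p g) (th l) * W θ l g
      rw [sum_comm (s := (univ : Finset (Finset Q))) (t := Y)]
    rw [h2] at h1
    calc 2 * Z ≤ _ := h1
      _ = Θ * Y.card / 4 := by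
        simp only [sum_const, card_univ, nsmul_eq_mul]
        rw [← hΘ]; ring
  let Z' : ℝ := ∑ θ : Finset Q, ∑ g ∈ Y, ∑ l ∈ Fr g,
    lampSign (p g) θ * lampSign (p g) (th l) * cW θ l
  have hZZ' : Z' ≤ Z + Θ * (n * e7) := by
    have h1 : Z' ≤ ∑ θ : Finset Q, (∑ g ∈ Y, ∑ l ∈ Fr g,
        lampSign (p g) θ * lampSign (p g) (th l) * W θ l g +
        ∑ g, ∑ l, |W θ l g - cW θ l|) := by
      apply sum_le_sum
      intro θ _
      have h2 : ∑ g ∈ Y, ∑ l ∈ Fr g, |W θ l g - cW θ l| ≤ ∑ g, ∑ l, |W θ l g - cW θ l| := by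
        calc _ ≤ ∑ g ∈ Y, ∑ l, |W θ l g - cW θ l| := by
              apply sum_le_sum
              intro g _
              exact sum_le_sum_of_subset_of_nonneg (subset_univ _) (fun l _ _ => abs_nonneg _)
          _ ≤ _ := sum_le_sum_of_subset_of_nonneg (subset_univ _)
              (fun g _ _ => sum_nonneg fun l _ => abs_nonneg _)
      have h3 : ∑ g ∈ Y, ∑ l ∈ Fr g, lampSign (p g) θ * lampSign (p g) (th l) * cW θ l ≤
          ∑ g ∈ Y, ∑ l ∈ Fr g, lampSign (p g) θ * lampSign (p g) (th l) * W θ l g +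
          ∑ g ∈ Y, ∑ l ∈ Fr g, |W θ l g - cW θ l| := by
        rw [← sum_add_distrib]
        apply sum_le_sum
        intro g _
        rw [← sum_add_distrib]
        apply sum_le_sum
        intro l _
        have : -(lampSign (p g) θ * lampSign (p g) (th l) * (W θ l g - cW θ l)) ≤
            |W θ l g - cW θ l| := by
          calc _ ≤ |lampSign (p g) θ * lampSign (p g) (th l) * (W θ l g - cW θ l)| :=
                neg_le_abs _
            _ = |W θ l g - cW θ l| := by
              rw [abs_mul, abs_mul, abs_lampSign, abs_lampSign]; ring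
        linarith
      linarith
    rw [sum_add_distrib] at h1
    have h4' : ∑ θ : Finset Q, ∑ g, ∑ l, |W θ l g - cW θ l| ≤ ∑ _θ : Finset Q, n * e7 :=
      sum_le_sum fun θ _ => hPW θ
    rw [sum_const, card_univ, nsmul_eq_mul, ← hΘ] at h4'
    exact h1.trans (add_le_add (le_refl _) h4')
  have hQpos : (0 : ℝ) < Fintype.card Q := by exact_mod_cast Fintype.card_pos
  have hZ'low : Θ * (2 / 5 * Y.card) ≤ Z' := by
    have h1 : ∀ θ : Finset Q, ∑ g ∈ Y, ∑ l ∈ Fr g,
        lampSign (p g) θ * lampSign (p g) (th l) * cW θ l =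
        ∑ a : Q, (4 * Y.card / (5 * Fintype.card Q) : ℝ) * S θ a := by
      intro θ
      have e1 : ∑ g ∈ Y, ∑ l ∈ Fr g, lampSign (p g) θ * lampSign (p g) (th l) * cW θ l =
          ∑ a : Q, ∑ g ∈ Y with p g = a, ∑ l ∈ Fr g,
            lampSign (p g) θ * lampSign (p g) (th l) * cW θ l :=
        (sum_fiberwise Y p _).symm
      rw [e1]
      apply sum_congr rfl
      intro a _
      have e2 : ∑ g ∈ Y with p g = a, ∑ l ∈ Fr g,
          lampSign (p g) θ * lampSign (p g) (th l) * cW θ l =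
          ∑ g ∈ Y with p g = a, ∑ l, if fr l g then
            lampSign a θ * lampSign a (th l) * cW θ l else 0 := by
        apply sum_congr rfl
        intro g hg
        have hpa : p g = a := (mem_filter.1 hg).2
        rw [hpa, sum_filter]
      rw [e2, sum_comm]
      show _ = (4 * Y.card / (5 * Fintype.card Q) : ℝ) *
        ∑ l, lampSign a θ * lampSign a (th l) * cW θ l
      rw [mul_sum]
      apply sum_congr rfl
      intro l _
      rw [← sum_filter, sum_const, nsmul_eq_mul]
      congr 1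
      have h3 := heq l a
      rw [Nat.card_eq_fintype_card, Fintype.card_subtype] at h3
      have h4' : ((Y.filter (fun g => p g = a)).filter (fun g => fr l g)) =
          univ.filter (fun g => g ∈ Y ∧ p g = a ∧ fr l g) := by
        ext g
        simp [and_assoc]
      rw [h4']
      have h5' : (5 * Fintype.card Q *
          ((univ.filter (fun g => g ∈ Y ∧ p g = a ∧ fr l g)).card : ℝ)) = 4 * Y.card := by
        exact_mod_cast h3
      rw [eq_div_iff (by positivity)]
      linarith
    calc Θ * (2 / 5 * Y.card) = ∑ _θ : Finset Q, (2 / 5 * Y.card : ℝ) := by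
          rw [sum_const, card_univ, nsmul_eq_mul]
      _ ≤ ∑ θ : Finset Q, ∑ a : Q, (4 * Y.card / (5 * Fintype.card Q) : ℝ) * S θ a := by
          apply sum_le_sum
          intro θ _
          calc (2 / 5 * Y.card : ℝ) = ∑ _a : Q, (4 * Y.card / (5 * Fintype.card Q) : ℝ) *
                (1 / 2) := by
                rw [sum_const, card_univ, nsmul_eq_mul]
                field_simp
                norm_num
            _ ≤ _ := by
                gcongr with a _
                exact hS θ a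
      _ = Z' := (sum_congr rfl fun θ _ => h1 θ).symm
  have hfin : Θ * (2 / 5 * Y.card) ≤ Θ * Y.card / 8 + Θ * (5 * Y.card * (1 / 25)) := by
    have : Θ * (n * e7) ≤ Θ * (5 * Y.card * (1 / 25)) := by
      rw [hYn]
      gcongr
    linarith
  have hpos : 0 < Θ * Y.card := by positivity
  nlinarith

end Vale.Agent.P090
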