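import Mathlib

/-!
P090: the congruence tower of the subgroup of SL_3(F_5[t]) generated by
e12(1), e23(1), e31(t).
-/

namespace Vale.Agent.P090

open Polynomial

/-- Products of at most `n` factors `x j` or their inverses. -/
def ball {Γ : Type*} [Group Γ] (x : Fin 3 → Γ) : ℕ → Set Γ
  | 0 => {1}
  | n + 1 => ball x n ∪ {g | ∃ h ∈ ball x n, ∃ j, g = h * x j ∨ g = h * (x j)⁻¹}

namespace Tower

instance fact_five : Fact (Nat.Prime 5) := ⟨by norm_num⟩

abbrev R : Type := (ZMod 5)[X]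

abbrev SL : Type := Matrix.SpecialLinearGroup (Fin 3) R

noncomputable def E12 (a : R) : SL :=
  ⟨!![1, a, 0; 0, 1, 0; 0, 0, 1], by simp [Matrix.det_fin_three]⟩
noncomputable def E23 (a : R) : SL :=
  ⟨!![1, 0, 0; 0, 1, a; 0, 0, 1], by simp [Matrix.det_fin_three]⟩
noncomputable def E31 (a : R) : SL :=
  ⟨!![1, 0, 0; 0, 1, 0; a, 0, 1], by simp [Matrix.det_fin_three]⟩
noncomputable def E13 (a : R) : SL :=
  ⟨!![1, 0, a; 0, 1, 0; 0, 0, 1], by simp [Matrix.det_fin_three]⟩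
noncomputable def E21 (a : R) : SL :=
  ⟨!![1, 0, 0; a, 1, 0; 0, 0, 1], by simp [Matrix.det_fin_three]⟩
noncomputable def E32 (a : R) : SL :=
  ⟨!![1, 0, 0; 0, 1, 0; 0, a, 1], by simp [Matrix.det_fin_three]⟩

lemma mat_ext {A B : Matrix (Fin 3) (Fin 3) R} (h : ∀ i j, A i j = B i j) : A = B :=
  Matrix.ext h

lemma E12_mul (a b : R) : E12 a * E12 b = E12 (a + b) := by
  apply Subtype.ext
  change !![1, a, 0; 0, 1, 0; 0, 0, 1] * !![1, b, 0; 0, 1, 0; 0, 0, 1] =
    !![1, a + b, 0; 0, 1, 0; 0, 0, 1]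
  refine mat_ext fun i j => ?_
  fin_cases i <;> fin_cases j <;> simp [Matrix.mul_apply, Fin.sum_univ_three, add_comm]

lemma E23_mul (a b : R) : E23 a * E23 b = E23 (a + b) := by
  apply Subtype.ext
  change !![1, 0, 0; 0, 1, a; 0, 0, 1] * !![1, 0, 0; 0, 1, b; 0, 0, 1] =
    !![1, 0, 0; 0, 1, a + b; 0, 0, 1]
  refine mat_ext fun i j => ?_
  fin_cases i <;> fin_cases j <;> simp [Matrix.mul_apply, Fin.sum_univ_three, add_comm]

lemma E31_mul (a b : R) : E31 a * E31 b = E31 (a + b) := by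
  apply Subtype.ext
  change !![1, 0, 0; 0, 1, 0; a, 0, 1] * !![1, 0, 0; 0, 1, 0; b, 0, 1] =
    !![1, 0, 0; 0, 1, 0; a + b, 0, 1]
  refine mat_ext fun i j => ?_
  fin_cases i <;> fin_cases j <;> simp [Matrix.mul_apply, Fin.sum_univ_three, add_comm]

lemma E13_mul (a b : R) : E13 a * E13 b = E13 (a + b) := by
  apply Subtype.ext
  change !![1, 0, a; 0, 1, 0; 0, 0, 1] * !![1, 0, b; 0, 1, 0; 0, 0, 1] =
    !![1, 0, a + b; 0, 1, 0; 0, 0, 1]
  refine mat_ext fun i j => ?_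
  fin_cases i <;> fin_cases j <;> simp [Matrix.mul_apply, Fin.sum_univ_three, add_comm]

lemma E32_mul (a b : R) : E32 a * E32 b = E32 (a + b) := by
  apply Subtype.ext
  change !![1, 0, 0; 0, 1, 0; 0, a, 1] * !![1, 0, 0; 0, 1, 0; 0, b, 1] =
    !![1, 0, 0; 0, 1, 0; 0, a + b, 1]
  refine mat_ext fun i j => ?_
  fin_cases i <;> fin_cases j <;> simp [Matrix.mul_apply, Fin.sum_univ_three, add_comm]

lemma E12_zero : E12 0 = 1 := by
  apply Subtype.ext
  refine mat_ext fun i j => ?_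
  fin_cases i <;> fin_cases j <;> simp [E12]

lemma E23_zero : E23 0 = 1 := by
  apply Subtype.ext
  refine mat_ext fun i j => ?_
  fin_cases i <;> fin_cases j <;> simp [E23]

lemma E31_zero : E31 0 = 1 := by
  apply Subtype.ext
  refine mat_ext fun i j => ?_
  fin_cases i <;> fin_cases j <;> simp [E31]

lemma E13_zero : E13 0 = 1 := by
  apply Subtype.ext
  refine mat_ext fun i j => ?_
  fin_cases i <;> fin_cases j <;> simp [E13]

lemma E32_zero : E32 0 = 1 := by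
  apply Subtype.ext
  refine mat_ext fun i j => ?_
  fin_cases i <;> fin_cases j <;> simp [E32]

lemma E12_inv (a : R) : (E12 a)⁻¹ = E12 (-a) :=
  inv_eq_of_mul_eq_one_right (by rw [E12_mul, add_neg_cancel, E12_zero])
lemma E23_inv (a : R) : (E23 a)⁻¹ = E23 (-a) :=
  inv_eq_of_mul_eq_one_right (by rw [E23_mul, add_neg_cancel, E23_zero])
lemma E31_inv (a : R) : (E31 a)⁻¹ = E31 (-a) :=
  inv_eq_of_mul_eq_one_right (by rw [E31_mul, add_neg_cancel, E31_zero])
lemma E13_inv (a : R) : (E13 a)⁻¹ = E13 (-a) :=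
  inv_eq_of_mul_eq_one_right (by rw [E13_mul, add_neg_cancel, E13_zero])
lemma E32_inv (a : R) : (E32 a)⁻¹ = E32 (-a) :=
  inv_eq_of_mul_eq_one_right (by rw [E32_mul, add_neg_cancel, E32_zero])

lemma comm12_23 (a b : R) : E12 a * E23 b * (E12 a)⁻¹ * (E23 b)⁻¹ = E13 (a * b) := by
  rw [E12_inv, E23_inv]
  apply Subtype.ext
  change !![1, a, 0; 0, 1, 0; 0, 0, 1] * !![1, 0, 0; 0, 1, b; 0, 0, 1] *
    !![1, -a, 0; 0, 1, 0; 0, 0, 1] * !![1, 0, 0; 0, 1, -b; 0, 0, 1] =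
    !![1, 0, a * b; 0, 1, 0; 0, 0, 1]
  refine mat_ext fun i j => ?_
  fin_cases i <;> fin_cases j <;> simp [Matrix.mul_apply, Fin.sum_univ_three]

lemma comm23_31 (a b : R) : E23 a * E31 b * (E23 a)⁻¹ * (E31 b)⁻¹ = E21 (a * b) := by
  rw [E23_inv, E31_inv]
  apply Subtype.ext
  change !![1, 0, 0; 0, 1, a; 0, 0, 1] * !![1, 0, 0; 0, 1, 0; b, 0, 1] *
    !![1, 0, 0; 0, 1, -a; 0, 0, 1] * !![1, 0, 0; 0, 1, 0; -b, 0, 1] =
    !![1, 0, 0; a * b, 1, 0; 0, 0, 1]
  refine mat_ext fun i j => ?_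
  fin_cases i <;> fin_cases j <;> simp [Matrix.mul_apply, Fin.sum_univ_three]

lemma comm31_12 (a b : R) : E31 a * E12 b * (E31 a)⁻¹ * (E12 b)⁻¹ = E32 (a * b) := by
  rw [E31_inv, E12_inv]
  apply Subtype.ext
  change !![1, 0, 0; 0, 1, 0; a, 0, 1] * !![1, b, 0; 0, 1, 0; 0, 0, 1] *
    !![1, 0, 0; 0, 1, 0; -a, 0, 1] * !![1, -b, 0; 0, 1, 0; 0, 0, 1] =
    !![1, 0, 0; 0, 1, 0; 0, a * b, 1]
  refine mat_ext fun i j => ?_
  fin_cases i <;> fin_cases j <;> simp [Matrix.mul_apply, Fin.sum_univ_three]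

lemma comm13_32 (a b : R) : E13 a * E32 b * (E13 a)⁻¹ * (E32 b)⁻¹ = E12 (a * b) := by
  rw [E13_inv, E32_inv]
  apply Subtype.ext
  change !![1, 0, a; 0, 1, 0; 0, 0, 1] * !![1, 0, 0; 0, 1, 0; 0, b, 1] *
    !![1, 0, -a; 0, 1, 0; 0, 0, 1] * !![1, 0, 0; 0, 1, 0; 0, -b, 1] =
    !![1, a * b, 0; 0, 1, 0; 0, 0, 1]
  refine mat_ext fun i j => ?_
  fin_cases i <;> fin_cases j <;> simp [Matrix.mul_apply, Fin.sum_univ_three]

lemma c13_12 (a b : R) : Commute (E13 a) (E12 b) := by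
  apply Subtype.ext
  change !![1, 0, a; 0, 1, 0; 0, 0, 1] * !![1, b, 0; 0, 1, 0; 0, 0, 1] =
    !![1, b, 0; 0, 1, 0; 0, 0, 1] * !![1, 0, a; 0, 1, 0; 0, 0, 1]
  refine mat_ext fun i j => ?_
  fin_cases i <;> fin_cases j <;> simp [Matrix.mul_apply, Fin.sum_univ_three]

lemma c13_23 (a b : R) : Commute (E13 a) (E23 b) := by
  apply Subtype.ext
  change !![1, 0, a; 0, 1, 0; 0, 0, 1] * !![1, 0, 0; 0, 1, b; 0, 0, 1] =
    !![1, 0, 0; 0, 1, b; 0, 0, 1] * !![1, 0, a; 0, 1, 0; 0, 0, 1]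
  refine mat_ext fun i j => ?_
  fin_cases i <;> fin_cases j <;> simp [Matrix.mul_apply, Fin.sum_univ_three]

lemma c21_23 (a b : R) : Commute (E21 a) (E23 b) := by
  apply Subtype.ext
  change !![1, 0, 0; a, 1, 0; 0, 0, 1] * !![1, 0, 0; 0, 1, b; 0, 0, 1] =
    !![1, 0, 0; 0, 1, b; 0, 0, 1] * !![1, 0, 0; a, 1, 0; 0, 0, 1]
  refine mat_ext fun i j => ?_
  fin_cases i <;> fin_cases j <;> simp [Matrix.mul_apply, Fin.sum_univ_three]

lemma c21_31 (a b : R) : Commute (E21 a) (E31 b) := by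
  apply Subtype.ext
  change !![1, 0, 0; a, 1, 0; 0, 0, 1] * !![1, 0, 0; 0, 1, 0; b, 0, 1] =
    !![1, 0, 0; 0, 1, 0; b, 0, 1] * !![1, 0, 0; a, 1, 0; 0, 0, 1]
  refine mat_ext fun i j => ?_
  fin_cases i <;> fin_cases j <;> simp [Matrix.mul_apply, Fin.sum_univ_three]

lemma c32_31 (a b : R) : Commute (E32 a) (E31 b) := by
  apply Subtype.ext
  change !![1, 0, 0; 0, 1, 0; 0, a, 1] * !![1, 0, 0; 0, 1, 0; b, 0, 1] =
    !![1, 0, 0; 0, 1, 0; b, 0, 1] * !![1, 0, 0; 0, 1, 0; 0, a, 1]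
  refine mat_ext fun i j => ?_
  fin_cases i <;> fin_cases j <;> simp [Matrix.mul_apply, Fin.sum_univ_three]

lemma c32_12 (a b : R) : Commute (E32 a) (E12 b) := by
  apply Subtype.ext
  change !![1, 0, 0; 0, 1, 0; 0, a, 1] * !![1, b, 0; 0, 1, 0; 0, 0, 1] =
    !![1, b, 0; 0, 1, 0; 0, 0, 1] * !![1, 0, 0; 0, 1, 0; 0, a, 1]
  refine mat_ext fun i j => ?_
  fin_cases i <;> fin_cases j <;> simp [Matrix.mul_apply, Fin.sum_univ_three]

lemma E12_pow (a : R) (n : ℕ) : E12 a ^ n = E12 (n • a) := by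
  induction n with
  | zero => rw [pow_zero, zero_smul, E12_zero]
  | succ n ih => rw [pow_succ, ih, E12_mul, succ_nsmul]
lemma E23_pow (a : R) (n : ℕ) : E23 a ^ n = E23 (n • a) := by
  induction n with
  | zero => rw [pow_zero, zero_smul, E23_zero]
  | succ n ih => rw [pow_succ, ih, E23_mul, succ_nsmul]
lemma E31_pow (a : R) (n : ℕ) : E31 a ^ n = E31 (n • a) := by
  induction n with
  | zero => rw [pow_zero, zero_smul, E31_zero]
  | succ n ih => rw [pow_succ, ih, E31_mul, succ_nsmul]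

lemma five_smul (a : R) : (5 : ℕ) • a = 0 := by
  have : ((5 : ℕ) : R) = 0 := CharP.cast_eq_zero R 5
  rw [nsmul_eq_mul, this, zero_mul]

/-- The generators. -/
noncomputable def gen : Fin 3 → SL := ![E12 1, E23 1, E31 X]

lemma gen_pow (j : Fin 3) : gen j ^ 5 = 1 := by
  fin_cases j
  · change E12 1 ^ 5 = 1
    rw [E12_pow, five_smul, E12_zero]
  · change E23 1 ^ 5 = 1
    rw [E23_pow, five_smul, E23_zero]
  · change E31 X ^ 5 = 1
    rw [E31_pow, five_smul, E31_zero]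

lemma comm_swap {G : Type*} [Group G] (x y : G)
    (h : Commute (x * y * x⁻¹ * y⁻¹) x ∧ Commute (x * y * x⁻¹ * y⁻¹) y) :
    Commute (y * x * y⁻¹ * x⁻¹) y ∧ Commute (y * x * y⁻¹ * x⁻¹) x := by
  have e : y * x * y⁻¹ * x⁻¹ = (x * y * x⁻¹ * y⁻¹)⁻¹ := by group
  rw [e]
  exact ⟨h.2.inv_left, h.1.inv_left⟩

lemma gen_comm (i j : Fin 3) : Commute (gen i * gen j * (gen i)⁻¹ * (gen j)⁻¹) (gen i) ∧
    Commute (gen i * gen j * (gen i)⁻¹ * (gen j)⁻¹) (gen j) := by
  have h01 : Commute (gen 0 * gen 1 * (gen 0)⁻¹ * (gen 1)⁻¹) (gen 0) ∧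
      Commute (gen 0 * gen 1 * (gen 0)⁻¹ * (gen 1)⁻¹) (gen 1) := by
    change Commute (E12 1 * E23 1 * (E12 1)⁻¹ * (E23 1)⁻¹) (E12 1) ∧
      Commute (E12 1 * E23 1 * (E12 1)⁻¹ * (E23 1)⁻¹) (E23 1)
    rw [comm12_23]
    exact ⟨c13_12 _ _, c13_23 _ _⟩
  have h12 : Commute (gen 1 * gen 2 * (gen 1)⁻¹ * (gen 2)⁻¹) (gen 1) ∧
      Commute (gen 1 * gen 2 * (gen 1)⁻¹ * (gen 2)⁻¹) (gen 2) := by
    change Commute (E23 1 * E31 X * (E23 1)⁻¹ * (E31 X)⁻¹) (E23 1) ∧
      Commute (E23 1 * E31 X * (E23 1)⁻¹ * (E31 X)⁻¹) (E31 X)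
    rw [comm23_31]
    exact ⟨c21_23 _ _, c21_31 _ _⟩
  have h20 : Commute (gen 2 * gen 0 * (gen 2)⁻¹ * (gen 0)⁻¹) (gen 2) ∧
      Commute (gen 2 * gen 0 * (gen 2)⁻¹ * (gen 0)⁻¹) (gen 0) := by
    change Commute (E31 X * E12 1 * (E31 X)⁻¹ * (E12 1)⁻¹) (E31 X) ∧
      Commute (E31 X * E12 1 * (E31 X)⁻¹ * (E12 1)⁻¹) (E12 1)
    rw [comm31_12]
    exact ⟨c32_31 _ _, c32_12 _ _⟩
  have hdiag : ∀ i, Commute (gen i * gen i * (gen i)⁻¹ * (gen i)⁻¹) (gen i) ∧
      Commute (gen i * gen i * (gen i)⁻¹ * (gen i)⁻¹) (gen i) := by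
    intro i
    have e : gen i * gen i * (gen i)⁻¹ * (gen i)⁻¹ = 1 := by group
    rw [e]
    exact ⟨Commute.one_left _, Commute.one_left _⟩
  fin_cases i <;> fin_cases j
  · exact hdiag 0
  · exact h01
  · exact comm_swap _ _ h20
  · exact comm_swap _ _ h01
  · exact hdiag 1
  · exact h12
  · exact h20
  · exact comm_swap _ _ h12
  · exact hdiag 2

/-- The group. -/
noncomputable def H : Subgroup SL := Subgroup.closure (Set.range gen)

lemma gen_mem (j : Fin 3) : gen j ∈ H := Subgroup.subset_closure ⟨j, rfl⟩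

lemma comm_mem {x y : SL} (hx : x ∈ H) (hy : y ∈ H) : x * y * x⁻¹ * y⁻¹ ∈ H :=
  H.mul_mem (H.mul_mem (H.mul_mem hx hy) (H.inv_mem hx)) (H.inv_mem hy)

lemma E32_mem : E32 X ∈ H := by
  have h := comm_mem (gen_mem 2) (gen_mem 0)
  have e : gen 2 * gen 0 * (gen 2)⁻¹ * (gen 0)⁻¹ = E32 (X * 1) := comm31_12 X 1
  rwa [e, mul_one] at h

lemma E12_mem (k : ℕ) : E12 (X ^ k) ∈ H := by
  induction k with
  | zero =>
    rw [pow_zero]
    exact gen_mem 0
  | succ k ih =>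
    have h1 := comm_mem ih (gen_mem 1)
    have e1 : E12 (X ^ k) * gen 1 * (E12 (X ^ k))⁻¹ * (gen 1)⁻¹ = E13 (X ^ k * 1) :=
      comm12_23 (X ^ k) 1
    rw [e1, mul_one] at h1
    have h2 := comm_mem h1 E32_mem
    rwa [comm13_32, ← pow_succ] at h2

/-- The generators of the group. -/
noncomputable def xg (j : Fin 3) : H := ⟨gen j, gen_mem j⟩

/-- Reduction modulo `X ^ k`. -/
noncomputable def red (k : ℕ) : SL →* Matrix.SpecialLinearGroup (Fin 3) (AdjoinRoot (X ^ k : R)) :=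
  Matrix.SpecialLinearGroup.map (AdjoinRoot.mk (X ^ k : R))

/-- The congruence subgroups. -/
noncomputable def N (k : ℕ) : Subgroup H := ((red k).comp H.subtype).ker

lemma mem_N {k : ℕ} {g : H} : g ∈ N k ↔ ∀ i j, (X ^ k : R) ∣ (g : SL).1 i j - (1 : Matrix _ _ R) i j := by
  rw [N, MonoidHom.mem_ker]
  constructor
  · intro h i j
    have h1 := congrArg (fun A : Matrix.SpecialLinearGroup (Fin 3) (AdjoinRoot (X ^ k : R)) =>
      A.1 i j) h
    have h2 : AdjoinRoot.mk (X ^ k : R) ((g : SL).1 i j) =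
        AdjoinRoot.mk (X ^ k : R) ((1 : Matrix (Fin 3) (Fin 3) R) i j) := by
      refine Eq.trans h1 ?_
      change (1 : Matrix (Fin 3) (Fin 3) (AdjoinRoot (X ^ k : R))) i j = _
      by_cases hij : i = j
      · subst hij
        simp
      · simp [Matrix.one_apply_ne hij]
    exact AdjoinRoot.mk_eq_mk.mp h2
  · intro h
    apply Subtype.ext
    apply Matrix.ext
    intro i j
    change AdjoinRoot.mk (X ^ k : R) ((g : SL).1 i j) =
      (1 : Matrix (Fin 3) (Fin 3) (AdjoinRoot (X ^ k : R))) i j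
    rw [AdjoinRoot.mk_eq_mk.mpr (h i j)]
    by_cases hij : i = j
    · subst hij
      simp
    · simp [Matrix.one_apply_ne hij]

lemma N_antitone : Antitone N := by
  intro k l hkl g hg
  rw [mem_N] at hg ⊢
  intro i j
  exact (pow_dvd_pow X hkl).trans (hg i j)

lemma finite_adjoin (k : ℕ) : Finite (AdjoinRoot (X ^ k : R)) := by
  have h1 : Module.Finite (ZMod 5) (AdjoinRoot (X ^ k : R)) :=
    (monic_X_pow k).finite_adjoinRoot
  exact Module.finite_of_finite (ZMod 5)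

lemma N_finite (k : ℕ) : Finite (H ⧸ N k) := by
  have h1 := finite_adjoin k
  have h2 : Finite (Matrix.SpecialLinearGroup (Fin 3) (AdjoinRoot (X ^ k : R))) :=
    Subtype.finite
  exact Finite.of_equiv _ (QuotientGroup.quotientKerEquivRange
    ((red k).comp H.subtype)).symm.toEquiv

lemma natDegree_le_of_mem_ball (n : ℕ) (g : H) (hg : g ∈ ball xg n) (i j : Fin 3) :
    ((g : SL).1 i j).natDegree ≤ n := by
  induction n generalizing g i j with
  | zero =>
    have : g = 1 := hg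
    subst this
    change ((1 : Matrix (Fin 3) (Fin 3) R) i j).natDegree ≤ 0
    by_cases hij : i = j
    · subst hij
      simp
    · simp [Matrix.one_apply_ne hij]
  | succ n ih =>
    rcases hg with hg | ⟨h, hh, k, hk⟩
    · exact (ih g hg i j).trans (Nat.le_succ n)
    · have key : ∀ (A B : Matrix (Fin 3) (Fin 3) R), (∀ i j, (A i j).natDegree ≤ n) →
          (∀ i j, (B i j).natDegree ≤ 1) → ((A * B) i j).natDegree ≤ n + 1 := by
        intro A B hA hB
        rw [Matrix.mul_apply]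
        refine natDegree_sum_le_of_forall_le _ _ fun l _ => ?_
        exact natDegree_mul_le.trans (add_le_add (hA i l) (hB l j))
      have hgen : ∀ k i j, ((gen k).1 i j).natDegree ≤ 1 := by
        intro k i j
        fin_cases k <;> fin_cases i <;> fin_cases j <;> simp [gen, E12, E23, E31, natDegree_X]
      have hgen' : ∀ k i j, (((gen k)⁻¹ : SL).1 i j).natDegree ≤ 1 := by
        intro k i j
        fin_cases k
        · change (((E12 1)⁻¹ : SL).1 i j).natDegree ≤ 1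
          rw [E12_inv]
          fin_cases i <;> fin_cases j <;> simp [E12]
        · change (((E23 1)⁻¹ : SL).1 i j).natDegree ≤ 1
          rw [E23_inv]
          fin_cases i <;> fin_cases j <;> simp [E23]
        · change (((E31 X)⁻¹ : SL).1 i j).natDegree ≤ 1
          rw [E31_inv]
          fin_cases i <;> fin_cases j <;> simp [E31, natDegree_X]
      rcases hk with hk | hk
      · subst hk
        exact key (h : SL).1 (gen k).1 (fun i j => ih h hh i j) (hgen k)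
      · subst hk
        exact key (h : SL).1 ((gen k)⁻¹ : SL).1 (fun i j => ih h hh i j) (hgen' k)

lemma ball_N (k n : ℕ) (hnk : n < k) (g : H) (hg : g ∈ ball xg n) (hN : g ∈ N k) : g = 1 := by
  apply Subtype.ext
  apply Subtype.ext
  apply Matrix.ext
  intro i j
  change (g : SL).1 i j = (1 : Matrix (Fin 3) (Fin 3) R) i j
  have h1 := mem_N.mp hN i j
  have h2 := natDegree_le_of_mem_ball n g hg i j
  have h3 : ((g : SL).1 i j - (1 : Matrix (Fin 3) (Fin 3) R) i j).natDegree ≤ n := by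
    refine (natDegree_sub_le _ _).trans (max_le h2 ?_)
    by_cases hij : i = j
    · subst hij
      simp
    · simp [Matrix.one_apply_ne hij]
  have h4 : (g : SL).1 i j - (1 : Matrix (Fin 3) (Fin 3) R) i j = 0 := by
    refine eq_zero_of_dvd_of_natDegree_lt h1 ?_
    rw [natDegree_X_pow]
    exact lt_of_le_of_lt h3 hnk
  exact sub_eq_zero.mp h4

lemma five_dvd (k : ℕ) : 5 ∣ (N (k + 1)).relIndex (N k) := by
  have hn : (N (k + 1)).Normal := by
    unfold N
    infer_instance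
  have hn' : ((N (k + 1)).subgroupOf (N k)).Normal := inferInstance
  let y : H := ⟨E12 (X ^ k), E12_mem k⟩
  have hy : y ∈ N k := by
    rw [mem_N]
    intro i j
    fin_cases i <;> fin_cases j <;> simp [y, E12]
  have hy' : y ∉ N (k + 1) := by
    intro h
    have h1 := mem_N.mp h 0 1
    have h2 : (X ^ (k + 1) : R) ∣ X ^ k := by
      simpa [y, E12] using h1
    have h3 := (pow_dvd_pow_iff (Polynomial.X_ne_zero (R := ZMod 5))
      Polynomial.not_isUnit_X).mp h2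
    omega
  have hy5 : y ^ 5 = 1 := by
    apply Subtype.ext
    change E12 (X ^ k) ^ 5 = 1
    rw [E12_pow, five_smul, E12_zero]
  have hord : orderOf (QuotientGroup.mk (s := (N (k + 1)).subgroupOf (N k))
      (⟨y, hy⟩ : N k)) = 5 := by
    apply orderOf_eq_prime
    · rw [← QuotientGroup.mk_pow]
      have : (⟨y, hy⟩ : N k) ^ 5 = 1 := by
        apply Subtype.ext
        exact hy5
      rw [this]
      rfl
    · intro h
      rw [QuotientGroup.eq_one_iff] at h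
      exact hy' h
  exact hord.symm.dvd.trans (orderOf_dvd_natCard _)

end Tower

open Tower in
theorem exists_tower :
    ∃ (Γ : Type) (_ : Group Γ) (x : Fin 3 → Γ) (N : ℕ → Subgroup Γ),
      (∀ j, x j ^ 5 = 1) ∧
      (∀ i j, Commute (x i * x j * (x i)⁻¹ * (x j)⁻¹) (x i) ∧
        Commute (x i * x j * (x i)⁻¹ * (x j)⁻¹) (x j)) ∧
      Subgroup.closure (Set.range x) = ⊤ ∧
      Antitone N ∧
      (∀ k, (N k).Normal) ∧
      (∀ k, Finite (Γ ⧸ N k)) ∧
      (∀ k n, n < k → ∀ g ∈ ball x n, g ∈ N k → g = 1) ∧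
      (∀ k, 5 ∣ (N (k + 1)).relIndex (N k)) := by
  refine ⟨H, inferInstance, xg, N, ?_, ?_, ?_, N_antitone, ?_, N_finite, ?_, five_dvd⟩
  · intro j
    apply Subtype.ext
    exact gen_pow j
  · intro i j
    obtain ⟨h1, h2⟩ := gen_comm i j
    exact ⟨Subtype.ext h1, Subtype.ext h2⟩
  · have h : Set.range xg = (fun g : H => (g : SL)) ⁻¹' (Set.range gen) := by
      ext g
      constructor
      · rintro ⟨j, rfl⟩
        exact ⟨j, rfl⟩
      · rintro ⟨j, hj⟩
        exact ⟨j, Subtype.ext hj⟩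
    rw [h]
    exact Subgroup.closure_closure_coe_preimage
  · intro k
    unfold N
    infer_instance
  · intro k n hnk g hg hN
    exact ball_N k n hnk g hg hN

end Vale.Agent.P090
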