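import Vale.Agent.Lib.P090.Gap
import Vale.Agent.Lib.P090.Tower
import Vale.Agent.Lib.P090.Numeric

/-!
P090: the combinatorial data of one block of the metric space, and its existence.
-/

namespace Vale.Agent.P090

open Finset

/-- Combinatorial data of one block: a finite group `Q` with a sequence of finite groups
`P i` over it, bump functions, and sets `Y i` of one fifth of every fibre. -/
structure Block where
  Q : Type
  P : ℕ → Type
  [gQ : Group Q]
  [fQ : Fintype Q]
  [dQ : DecidableEq Q]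
  [gP : ∀ i, Group (P i)]
  [fP : ∀ i, Fintype (P i)]
  [dP : ∀ i, DecidableEq (P i)]
  xQ : Fin 3 → Q
  x : ∀ i, Fin 3 → P i
  π : ∀ i, P i →* Q
  ψ : ∀ m i, i < m → (P m →* P i)
  ωQ : Q → ℝ
  ω : ∀ i, P i → ℝ
  Y : ∀ i, Finset (P i)
  /-- `1 / ρ` is the slope of the bump functions -/
  ρ : ℝ
  /-- small density -/
  β : ℝ
  ρ_pos : 0 < ρ
  π_x : ∀ i j, π i (x i j) = xQ j
  ψ_x : ∀ m i h j, ψ m i h (x m j) = x i j
  π_ψ : ∀ m i h y, π i (ψ m i h y) = π m y
  hasGap : ∀ i, HasGap (x i)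
  ω_nonneg : ∀ i g, 0 ≤ ω i g
  ω_one : ∀ i, ω i 1 = 1
  ωQ_one : ωQ 1 = 1
  ωQ_le : ∀ q, ωQ q ≤ 1
  fib : ∀ i q, ∑ g with π i g = q, ω i g = ωQ q
  lipL : ∀ i j q, ∑ g with π i g = q, |ω i ((x i j)⁻¹ * g) - ω i g| ≤ 1 / ρ
  lipR : ∀ i j q, ∑ g with π i g = q, |ω i (g * x i j) - ω i g| ≤ 1 / ρ
  small : ∀ i b, (Nat.card {y : P i // ωQ (b⁻¹ * π i y) ≠ 0} : ℝ) ≤ β * Fintype.card (P i)
  Ycard : ∀ i, 5 * (Y i).card = Fintype.card (P i)
  Yequi : ∀ m i (h : i < m) (δ : P i), π i δ = 1 → ∀ a : Q,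
    5 * Fintype.card Q * Nat.card {y : P m // y ∈ Y m ∧ π m y = a ∧ δ * ψ m i h y ∉ Y i}
      = 4 * (Y m).card

attribute [instance] Block.gQ Block.fQ Block.dQ Block.gP Block.fP Block.dP

/-! ### counting fibres -/

section count

variable {G H : Type*} [Group G] [Fintype G] [Group H] [Fintype H]

lemma card_filter_comp (φ : G →* H) (hφ : Function.Surjective φ) (p : H → Prop)
    [DecidablePred p] :
    (univ.filter (fun g => p (φ g))).card * Fintype.card H =
      (univ.filter p).card * Fintype.card G := by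
  classical
  have hc : ∀ h : H, (univ.filter (fun g => φ g = h)).card =
      (univ.filter (fun g => φ g = 1)).card := fun h =>
    MonoidHom.card_fiber_eq_of_mem_range φ (hφ h) (hφ 1)
  have h1 : ∀ (q : H → Prop) [DecidablePred q], (univ.filter (fun g => q (φ g))).card =
      (univ.filter q).card * (univ.filter (fun g => φ g = 1)).card := by
    intro q _
    rw [Finset.card_eq_sum_card_fiberwise (f := φ) (t := univ.filter q)]
    · rw [Finset.card_eq_sum_ones, Finset.sum_mul]
      refine Finset.sum_congr rfl fun h hh => ?_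
      rw [one_mul, ← hc h]
      congr 1
      ext g
      simp only [mem_filter, mem_univ, true_and] at hh ⊢
      constructor
      · rintro ⟨-, h2⟩
        exact h2
      · rintro rfl
        exact ⟨hh, rfl⟩
    · intro g hg
      simpa using hg
  have h2 : Fintype.card G = Fintype.card H * (univ.filter (fun g => φ g = 1)).card := by
    have := h1 (fun _ => True)
    simpa using this
  rw [h1 p, h2]
  ring

lemma exists_fifth (τ : G →* H) (h5 : ∀ z : H, 5 ∣ Nat.card {g : G // τ g = z}) :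
    ∃ Y : Finset G, ∀ (p : H → Prop) [DecidablePred p],
      5 * (Y.filter (fun g => p (τ g))).card = (univ.filter (fun g => p (τ g))).card := by
  classical
  have h : ∀ z : H, ∃ S : Finset G, S ⊆ univ.filter (fun g => τ g = z) ∧
      5 * S.card = (univ.filter (fun g => τ g = z)).card := by
    intro z
    obtain ⟨c, hc⟩ := h5 z
    rw [Nat.card_eq_fintype_card, Fintype.card_subtype] at hc
    obtain ⟨S, hS, hS'⟩ := Finset.exists_subset_card_eq
      (s := univ.filter (fun g => τ g = z)) (n := c) (by omega)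
    exact ⟨S, hS, by rw [hS', hc]⟩
  choose S hS hS' using h
  refine ⟨univ.filter (fun g => g ∈ S (τ g)), fun p _ => ?_⟩
  have e1 : ((univ.filter (fun g => g ∈ S (τ g))).filter (fun g => p (τ g))).card =
      ∑ z ∈ univ.filter p, (S z).card := by
    rw [Finset.card_eq_sum_card_fiberwise (f := τ) (t := univ.filter p)]
    · refine Finset.sum_congr rfl fun z hz => ?_
      congr 1
      ext g
      simp only [mem_filter, mem_univ, true_and] at hz ⊢
      constructor
      · rintro ⟨⟨h1, -⟩, rfl⟩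
        exact h1
      · intro hg
        have h2 := (mem_filter.1 (hS z hg)).2
        subst h2
        exact ⟨⟨hg, hz⟩, rfl⟩
    · intro g hg
      simp only [coe_filter, Set.mem_ofPred_eq] at hg ⊢
      simp only [mem_filter, mem_univ, true_and] at hg
      exact ⟨mem_univ _, hg.2⟩
  have e2 : (univ.filter (fun g => p (τ g))).card =
      ∑ z ∈ univ.filter p, (univ.filter (fun g => τ g = z)).card := by
    rw [Finset.card_eq_sum_card_fiberwise (f := τ) (t := univ.filter p)]
    · refine Finset.sum_congr rfl fun z hz => ?_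
      congr 1
      ext g
      simp only [mem_filter, mem_univ, true_and] at hz ⊢
      constructor
      · rintro ⟨-, h1⟩
        exact h1
      · rintro rfl
        exact ⟨hz, rfl⟩
    · intro g hg
      simpa using hg
  rw [e1, e2, Finset.mul_sum]
  exact Finset.sum_congr rfl fun z _ => hS' z

end count

/-! ### word balls -/

section balls

variable {Γ : Type*} [Group Γ] (x : Fin 3 → Γ)

lemma ball_subset_succ (n : ℕ) : ball x n ⊆ ball x (n + 1) := Set.subset_union_left

lemma ball_mono {m n : ℕ} (h : m ≤ n) : ball x m ⊆ ball x n := by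
  induction h with
  | refl => exact subset_rfl
  | step _ ih => exact ih.trans (ball_subset_succ x _)

lemma one_mem_ball (n : ℕ) : (1 : Γ) ∈ ball x n :=
  ball_mono x (Nat.zero_le n) rfl

lemma mul_gen_mem {n : ℕ} {g : Γ} (hg : g ∈ ball x n) (j : Fin 3) :
    g * x j ∈ ball x (n + 1) := Or.inr ⟨g, hg, j, Or.inl rfl⟩

lemma mul_gen_inv_mem {n : ℕ} {g : Γ} (hg : g ∈ ball x n) (j : Fin 3) :
    g * (x j)⁻¹ ∈ ball x (n + 1) := Or.inr ⟨g, hg, j, Or.inr rfl⟩

lemma gen_mem (j : Fin 3) : x j ∈ ball x 1 := by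
  have := mul_gen_mem x (one_mem_ball x 0) j
  rwa [one_mul] at this

lemma gen_inv_mem (j : Fin 3) : (x j)⁻¹ ∈ ball x 1 := by
  have := mul_gen_inv_mem x (one_mem_ball x 0) j
  rwa [one_mul] at this

lemma mul_mem_ball {m n : ℕ} {g h : Γ} (hg : g ∈ ball x m) (hh : h ∈ ball x n) :
    g * h ∈ ball x (m + n) := by
  induction n generalizing h with
  | zero =>
    have : h = 1 := hh
    rw [this, mul_one]
    exact hg
  | succ n ih =>
    rcases hh with hh | ⟨h', hh', j, rfl | rfl⟩
    · exact ball_subset_succ x _ (ih hh)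
    · rw [← mul_assoc]
      exact mul_gen_mem x (ih hh') j
    · rw [← mul_assoc]
      exact mul_gen_inv_mem x (ih hh') j

lemma inv_mem_ball {n : ℕ} {g : Γ} (hg : g ∈ ball x n) : g⁻¹ ∈ ball x n := by
  induction n generalizing g with
  | zero =>
    have : g = 1 := hg
    rw [this, inv_one]
    rfl
  | succ n ih =>
    rcases hg with hg | ⟨h, hh, j, rfl | rfl⟩
    · exact ball_subset_succ x _ (ih hg)
    · rw [mul_inv_rev, add_comm]
      exact mul_mem_ball x (gen_inv_mem x j) (ih hh)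
    · rw [mul_inv_rev, inv_inv, add_comm]
      exact mul_mem_ball x (gen_mem x j) (ih hh)

lemma finite_ball_card (n : ℕ) : (ball x n).Finite ∧ (ball x n).ncard ≤ 7 ^ n := by
  induction n with
  | zero =>
    refine ⟨Set.finite_singleton 1, ?_⟩
    change ({1} : Set Γ).ncard ≤ 7 ^ 0
    simp
  | succ n ih =>
    obtain ⟨hf, hc⟩ := ih
    have hsub : ball x (n + 1) ⊆ ball x n ∪ ⋃ j : Fin 3,
        ((fun h => h * x j) '' ball x n ∪ (fun h => h * (x j)⁻¹) '' ball x n) := by
      rintro g (hg | ⟨h, hh, j, rfl | rfl⟩)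
      · exact Or.inl hg
      · exact Or.inr (Set.mem_iUnion.2 ⟨j, Or.inl ⟨h, hh, rfl⟩⟩)
      · exact Or.inr (Set.mem_iUnion.2 ⟨j, Or.inr ⟨h, hh, rfl⟩⟩)
    have hfin : (ball x n ∪ ⋃ j : Fin 3,
        ((fun h => h * x j) '' ball x n ∪ (fun h => h * (x j)⁻¹) '' ball x n)).Finite :=
      hf.union (Set.finite_iUnion fun j => (hf.image _).union (hf.image _))
    refine ⟨hfin.subset hsub, (Set.ncard_le_ncard hsub hfin).trans ?_⟩
    have h1 : ∀ j : Fin 3, ((fun h => h * x j) '' ball x n ∪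
        (fun h => h * (x j)⁻¹) '' ball x n).ncard ≤ 2 * 7 ^ n := by
      intro j
      refine (Set.ncard_union_le _ _).trans ?_
      have a1 := Set.ncard_image_le (f := fun h => h * x j) hf
      have a2 := Set.ncard_image_le (f := fun h => h * (x j)⁻¹) hf
      omega
    have h2 : (⋃ j : Fin 3, ((fun h => h * x j) '' ball x n ∪
        (fun h => h * (x j)⁻¹) '' ball x n)).ncard ≤ 6 * 7 ^ n := by
      refine (Set.ncard_iUnion_le_of_fintype _).trans ?_
      refine (Finset.sum_le_sum fun j _ => h1 j).trans ?_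
      simp only [sum_const, card_univ, Fintype.card_fin, smul_eq_mul]
      omega
    refine (Set.ncard_union_le _ _).trans ?_
    rw [pow_succ]
    omega

/-- The bump function `max (0, 1 - length / ρ)`. -/
noncomputable def bump {K : Type*} (μ : Γ → K) (ρ : ℕ) (g : K) : ℝ :=
  (∑ j ∈ range ρ, Set.indicator (μ '' ball x j) (fun _ => (1 : ℝ)) g) / ρ

lemma bump_nonneg {K : Type*} (μ : Γ → K) (ρ : ℕ) (g : K) : 0 ≤ bump x μ ρ g := by
  unfold bump
  refine div_nonneg (Finset.sum_nonneg fun j _ => ?_) (Nat.cast_nonneg ρ)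
  exact Set.indicator_nonneg (fun _ _ => zero_le_one) _

lemma bump_le_one {K : Type*} (μ : Γ → K) (ρ : ℕ) (g : K) : bump x μ ρ g ≤ 1 := by
  unfold bump
  refine div_le_one_of_le₀ ?_ (Nat.cast_nonneg ρ)
  calc _ ≤ ∑ j ∈ range ρ, (1 : ℝ) := Finset.sum_le_sum fun j _ => by
        unfold Set.indicator
        split_ifs <;> norm_num
    _ = ρ := by simp

lemma bump_one {K : Type*} (μ : Γ → K) {ρ : ℕ} (hρ : 0 < ρ) : bump x μ ρ (μ 1) = 1 := by
  unfold bump
  have : ∀ j ∈ range ρ, Set.indicator (μ '' ball x j) (fun _ => (1 : ℝ)) (μ 1) = 1 := fun j _ =>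
    Set.indicator_of_mem (Set.mem_image_of_mem μ (one_mem_ball x j)) _
  rw [Finset.sum_congr rfl this]
  have h : (ρ : ℝ) ≠ 0 := by positivity
  simp [h]

lemma bump_eq_zero {K : Type*} (μ : Γ → K) {ρ : ℕ} {g : K} (hg : g ∉ μ '' ball x ρ) :
    bump x μ ρ g = 0 := by
  unfold bump
  have : ∀ j ∈ range ρ, Set.indicator (μ '' ball x j) (fun _ => (1 : ℝ)) g = 0 := fun j hj =>
    Set.indicator_of_notMem
      (fun h => hg (Set.image_mono (ball_mono x (mem_range.1 hj).le) h)) _
  rw [Finset.sum_eq_zero this, zero_div]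

lemma bump_fib {G H : Type*} [Fintype G] [DecidableEq H] (φ : G → H) (μG : Γ → G) (μH : Γ → H)
    (hμ : ∀ g, φ (μG g) = μH g) (ρ : ℕ)
    (hinj : ∀ u ∈ ball x ρ, ∀ v ∈ ball x ρ, μH u = μH v → u = v) (q : H) :
    ∑ g with φ g = q, bump x μG ρ g = bump x μH ρ q := by
  unfold bump
  rw [← Finset.sum_div, Finset.sum_comm]
  congr 1
  refine Finset.sum_congr rfl fun j hj => ?_
  have hjρ := ball_mono x (mem_range.1 hj).le
  by_cases hq : q ∈ μH '' ball x j
  · obtain ⟨u, hu, rfl⟩ := hq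
    rw [Set.indicator_of_mem (Set.mem_image_of_mem _ hu)]
    rw [Finset.sum_eq_single (μG u)]
    · exact Set.indicator_of_mem (Set.mem_image_of_mem _ hu) _
    · intro g hg hne
      refine Set.indicator_of_notMem ?_ _
      rintro ⟨v, hv, rfl⟩
      rw [mem_filter] at hg
      have h2 : μH v = μH u := by rw [← hμ v]; exact hg.2
      exact hne (by rw [hinj v (hjρ hv) u (hjρ hu) h2])
    · intro h
      refine absurd ?_ h
      rw [mem_filter]
      exact ⟨mem_univ _, hμ u⟩
  · rw [Set.indicator_of_notMem hq]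
    refine Finset.sum_eq_zero fun g hg => ?_
    refine Set.indicator_of_notMem ?_ _
    rintro ⟨v, hv, rfl⟩
    rw [mem_filter] at hg
    exact hq ⟨v, hv, by rw [← hμ v]; exact hg.2⟩

lemma bump_sub_le {K : Type*} (μ : Γ → K) {ρ : ℕ} {g g' : K}
    (h : ∀ j, g' ∈ μ '' ball x j → g ∈ μ '' ball x (j + 1)) :
    bump x μ ρ g' - bump x μ ρ g ≤ 1 / ρ := by
  unfold bump
  rw [← sub_div]
  refine div_le_div_of_nonneg_right ?_ (Nat.cast_nonneg ρ)
  have h1 : ∑ j ∈ range ρ, Set.indicator (μ '' ball x j) (fun _ => (1 : ℝ)) g' ≤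
      ∑ j ∈ range ρ, Set.indicator (μ '' ball x (j + 1)) (fun _ => (1 : ℝ)) g := by
    refine Finset.sum_le_sum fun j _ => ?_
    by_cases hg : g' ∈ μ '' ball x j
    · rw [Set.indicator_of_mem hg, Set.indicator_of_mem (h j hg)]
    · rw [Set.indicator_of_notMem hg]
      exact Set.indicator_nonneg (fun _ _ => zero_le_one) _
  have h2 : ∑ j ∈ range ρ, Set.indicator (μ '' ball x (j + 1)) (fun _ => (1 : ℝ)) g +
      Set.indicator (μ '' ball x 0) (fun _ => (1 : ℝ)) g =
      ∑ j ∈ range ρ, Set.indicator (μ '' ball x j) (fun _ => (1 : ℝ)) g +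
      Set.indicator (μ '' ball x ρ) (fun _ => (1 : ℝ)) g := by
    rw [← Finset.sum_range_succ' (fun j => Set.indicator (μ '' ball x j) (fun _ => (1 : ℝ)) g),
      Finset.sum_range_succ (fun j => Set.indicator (μ '' ball x j) (fun _ => (1 : ℝ)) g)]
  have h3 : 0 ≤ Set.indicator (μ '' ball x 0) (fun _ => (1 : ℝ)) g :=
    Set.indicator_nonneg (fun _ _ => zero_le_one) _
  have h4 : Set.indicator (μ '' ball x ρ) (fun _ => (1 : ℝ)) g ≤ 1 := by
    unfold Set.indicator
    split_ifs <;> norm_num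
  linarith

lemma bump_lip {G H : Type*} [Fintype G] [DecidableEq H] (φ : G → H) (μ : Γ → G) {ρ : ℕ}
    (hinj : ∀ g ∈ μ '' ball x ρ, ∀ g' ∈ μ '' ball x ρ, φ g = φ g' → g = g')
    (s : G → G) (hs : ∀ j g, s g ∈ μ '' ball x j → g ∈ μ '' ball x (j + 1))
    (hs' : ∀ j g, g ∈ μ '' ball x j → s g ∈ μ '' ball x (j + 1)) (q : H) :
    ∑ g with φ g = q, |bump x μ ρ (s g) - bump x μ ρ g| ≤ 1 / ρ := by
  have hz : ∀ g, g ∉ μ '' ball x ρ → |bump x μ ρ (s g) - bump x μ ρ g| = 0 := by
    intro g hg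
    rw [bump_eq_zero x μ hg]
    have : bump x μ ρ (s g) = 0 := by
      unfold bump
      have : ∀ j ∈ range ρ, Set.indicator (μ '' ball x j) (fun _ => (1 : ℝ)) (s g) = 0 :=
        fun j hj => Set.indicator_of_notMem
          (fun h => hg (Set.image_mono (ball_mono x (mem_range.1 hj)) (hs j g h))) _
      rw [Finset.sum_eq_zero this, zero_div]
    rw [this, sub_zero, abs_zero]
  have hle : ∀ g, |bump x μ ρ (s g) - bump x μ ρ g| ≤ 1 / ρ := by
    intro g
    rw [abs_sub_le_iff]
    exact ⟨bump_sub_le x μ fun j h => hs j g h, bump_sub_le x μ fun j h => hs' j g h⟩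
  by_cases hex : ∃ g0, φ g0 = q ∧ g0 ∈ μ '' ball x ρ
  · obtain ⟨g0, hg0, hg0'⟩ := hex
    rw [Finset.sum_eq_single g0]
    · exact hle g0
    · intro g hg hne
      apply hz
      intro hgB
      rw [mem_filter] at hg
      exact hne (hinj g hgB g0 hg0' (by rw [hg.2, hg0]))
    · intro h
      refine absurd ?_ h
      rw [mem_filter]
      exact ⟨mem_univ _, hg0⟩
  · rw [Finset.sum_eq_zero]
    · positivity
    · intro g hg
      apply hz
      intro hgB
      rw [mem_filter] at hg
      exact hex ⟨g, hg.2, hgB⟩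

end balls

/-! ### the tower -/

section tower

variable {Γ : Type} [Group Γ] (x : Fin 3 → Γ) (N : ℕ → Subgroup Γ) [hN : ∀ k, (N k).Normal]
  (hanti : Antitone N)

/-- the projections of the tower -/
def pr {k k' : ℕ} (h : k ≤ k') : Γ ⧸ N k' →* Γ ⧸ N k :=
  QuotientGroup.map _ _ (MonoidHom.id Γ) (fun _ hg => hanti h hg)

@[simp] lemma pr_mk {k k' : ℕ} (h : k ≤ k') (g : Γ) :
    pr N hanti h (QuotientGroup.mk g) = QuotientGroup.mk g := rfl

lemma pr_surjective {k k' : ℕ} (h : k ≤ k') : Function.Surjective (pr N hanti h) := by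
  intro y
  induction y using QuotientGroup.induction_on with
  | H g => exact ⟨QuotientGroup.mk g, rfl⟩

lemma pr_pr {k k' k'' : ℕ} (h : k ≤ k') (h' : k' ≤ k'') (y : Γ ⧸ N k'') :
    pr N hanti h (pr N hanti h' y) = pr N hanti (h.trans h') y := by
  induction y using QuotientGroup.induction_on with
  | H g => rfl

omit hN in
lemma ball_inj (hinj : ∀ k n, n < k → ∀ g ∈ ball x n, g ∈ N k → g = 1) {k ρ : ℕ}
    (hk : 2 * ρ < k) {u v : Γ} (hu : u ∈ ball x ρ) (hv : v ∈ ball x ρ)
    (h : (QuotientGroup.mk u : Γ ⧸ N k) = QuotientGroup.mk v) : u = v := by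
  rw [QuotientGroup.eq] at h
  have h1 := hinj k (ρ + ρ) (by omega) _ (mul_mem_ball x (inv_mem_ball x hu) hv) h
  exact inv_mul_eq_one.1 h1

variable [hF : ∀ k, Fintype (Γ ⧸ N k)]

include hanti in
omit hN in
lemma card_succ (k : ℕ) :
    Fintype.card (Γ ⧸ N (k + 1)) = (N (k + 1)).relIndex (N k) * Fintype.card (Γ ⧸ N k) := by
  have h := Subgroup.relIndex_mul_index (hanti (Nat.le_succ k))
  unfold Subgroup.index at h
  rw [Nat.card_eq_fintype_card, Nat.card_eq_fintype_card] at h
  exact h.symm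

include hanti in
omit hN in
lemma card_ge (hfive : ∀ k, 5 ∣ (N (k + 1)).relIndex (N k)) (k : ℕ) :
    5 ^ k ≤ Fintype.card (Γ ⧸ N k) := by
  induction k with
  | zero =>
    rw [pow_zero]
    exact Nat.succ_le_of_lt (Fintype.card_pos_iff.2 ⟨QuotientGroup.mk 1⟩)
  | succ k ih =>
    rw [card_succ N hanti k, pow_succ, mul_comm]
    refine Nat.mul_le_mul ?_ ih
    refine Nat.le_of_dvd ?_ (hfive k)
    refine Nat.pos_of_ne_zero fun h0 => ?_
    have h1 := card_succ N hanti k
    rw [h0, zero_mul] at h1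
    have h2 : 0 < Fintype.card (Γ ⧸ N (k + 1)) := Fintype.card_pos_iff.2 ⟨QuotientGroup.mk 1⟩
    omega

lemma exists_Y (hfive : ∀ k, 5 ∣ (N (k + 1)).relIndex (N k)) (k : ℕ) :
    ∃ Y : Finset (Γ ⧸ N (k + 1)), ∀ (p : Γ ⧸ N k → Prop) [DecidablePred p],
      5 * (Y.filter (fun g => p (pr N hanti (Nat.le_succ k) g))).card =
        (univ.filter (fun g => p (pr N hanti (Nat.le_succ k) g))).card := by
  classical
  refine exists_fifth (pr N hanti (Nat.le_succ k)) fun z => ?_
  rw [Nat.card_eq_fintype_card, Fintype.card_subtype]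
  have h1 := card_filter_comp (pr N hanti (Nat.le_succ k)) (pr_surjective N hanti _) (fun w => w = z)
  rw [card_succ N hanti k] at h1
  have h2 : (univ.filter (fun w => w = z)).card = 1 := by
    rw [Finset.card_eq_one]
    exact ⟨z, by ext w; simp⟩
  rw [h2, one_mul] at h1
  have h3 : 0 < Fintype.card (Γ ⧸ N k) := Fintype.card_pos_iff.2 ⟨QuotientGroup.mk 1⟩
  rw [Nat.eq_of_mul_eq_mul_right h3 h1]
  exact hfive k

end tower

lemma final_arith {A M W P' p F q y W' Z : ℕ} (hp : 0 < p) (e1 : 5 * A = M)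
    (e2 : M * p = W * P') (e3 : W = W') (e4 : 5 * Z = F) (e5 : W' + Z = F) (e6 : F * q = p)
    (e8 : 5 * y = P') : 5 * q * A = 4 * y := by
  apply Nat.eq_of_mul_eq_mul_left (show 0 < 5 * p by omega)
  zify at *
  linear_combination 5 * p * q * e1 + 5 * q * e2 + 5 * q * P' * e3 + q * P' * (5 * e5 - e4) +
    4 * P' * e6 - 4 * p * e8

/-- For all `R` and all positive `b` there is a block with `R ≤ ρ` and `β ≤ b`. -/
theorem exists_block (R b : ℝ) (hb : 0 < b) :
    ∃ B : Block, R ≤ B.ρ ∧ B.β ≤ b := by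
  classical
  obtain ⟨Γ, gΓ, x, N, h5, hc, hgen, hanti, hnorm, hfin, hinj, hfive⟩ := exists_tower
  have : ∀ k, Finite (Γ ⧸ N k) := hfin
  let hF : ∀ k, Fintype (Γ ⧸ N k) := fun k => Fintype.ofFinite _
  obtain ⟨ρ, hρ⟩ := exists_nat_ge (max R 1)
  have hρR : R ≤ ρ := (le_max_left _ _).trans hρ
  have hρ1 : 0 < ρ := by
    have : (1 : ℝ) ≤ ρ := (le_max_right _ _).trans hρ
    exact_mod_cast lt_of_lt_of_le zero_lt_one this
  obtain ⟨k1, hk1⟩ := pow_unbounded_of_one_lt ((7 : ℝ) ^ ρ / b) (by norm_num : (1 : ℝ) < 5)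
  obtain ⟨k0, hk0a, hk0b⟩ : ∃ k0, 2 * ρ < k0 ∧ (7 : ℝ) ^ ρ ≤ b * 5 ^ k0 := by
    refine ⟨max k1 (2 * ρ + 1), by omega, ?_⟩
    rw [div_lt_iff₀' hb] at hk1
    refine hk1.le.trans ?_
    have : (5 : ℝ) ^ k1 ≤ 5 ^ (max k1 (2 * ρ + 1)) :=
      pow_le_pow_right₀ (by norm_num) (le_max_left _ _)
    gcongr
  choose Y hY using fun i => exists_Y N hanti hfive (k0 + i)
  have hle0 : ∀ i, k0 ≤ k0 + i + 1 := fun i => by omega
  have hmi : ∀ m i, i < m → k0 + i + 1 ≤ k0 + m + 1 := fun m i h => by omega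
  have hYcard : ∀ i, 5 * (Y i).card = Fintype.card (Γ ⧸ N (k0 + i + 1)) := by
    intro i
    have := hY i (fun _ => True)
    simpa using this
  -- injectivity in the quotients
  have hinj' : ∀ k, k0 ≤ k → ∀ g ∈ (QuotientGroup.mk : Γ → Γ ⧸ N k) '' ball x ρ,
      ∀ g' ∈ (QuotientGroup.mk : Γ → Γ ⧸ N k) '' ball x ρ, ∀ h : k0 ≤ k,
      pr N hanti h g = pr N hanti h g' → g = g' := by
    rintro k hk _ ⟨u, hu, rfl⟩ _ ⟨v, hv, rfl⟩ h he
    rw [pr_mk, pr_mk] at he
    rw [ball_inj x N hinj hk0a hu hv he]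
  have hshiftL : ∀ k (y : Γ) , y ∈ ball x 1 → ∀ j (g : Γ ⧸ N k),
      g ∈ (QuotientGroup.mk : Γ → Γ ⧸ N k) '' ball x j →
      (QuotientGroup.mk y) * g ∈ (QuotientGroup.mk : Γ → Γ ⧸ N k) '' ball x (j + 1) := by
    rintro k y hy j _ ⟨u, hu, rfl⟩
    refine ⟨y * u, ?_, rfl⟩
    rw [add_comm]
    exact mul_mem_ball x hy hu
  have hshiftR : ∀ k (y : Γ) , y ∈ ball x 1 → ∀ j (g : Γ ⧸ N k),
      g ∈ (QuotientGroup.mk : Γ → Γ ⧸ N k) '' ball x j →
      g * (QuotientGroup.mk y) ∈ (QuotientGroup.mk : Γ → Γ ⧸ N k) '' ball x (j + 1) := by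
    rintro k y hy j _ ⟨u, hu, rfl⟩
    exact ⟨u * y, mul_mem_ball x hu hy, rfl⟩
  refine ⟨{ Q := Γ ⧸ N k0
            P := fun i => Γ ⧸ N (k0 + i + 1)
            xQ := fun j => QuotientGroup.mk (x j)
            x := fun i j => QuotientGroup.mk (x j)
            π := fun i => pr N hanti (hle0 i)
            ψ := fun m i h => pr N hanti (hmi m i h)
            ωQ := bump x (QuotientGroup.mk : Γ → Γ ⧸ N k0) ρ
            ω := fun i => bump x (QuotientGroup.mk : Γ → Γ ⧸ N (k0 + i + 1)) ρ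
            Y := Y
            ρ := ρ
            β := b
            ρ_pos := by exact_mod_cast hρ1
            π_x := fun i j => rfl
            ψ_x := fun m i h j => rfl
            π_ψ := fun m i h y => pr_pr N hanti _ _ y
            hasGap := ?_
            ω_nonneg := fun i g => bump_nonneg x _ ρ g
            ω_one := fun i => bump_one x _ hρ1
            ωQ_one := bump_one x _ hρ1
            ωQ_le := fun q => bump_le_one x _ ρ q
            fib := ?_
            lipL := ?_
            lipR := ?_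
            small := ?_
            Ycard := hYcard
            Yequi := ?_ }, hρR, le_rfl⟩
  · -- gap
    intro i f
    refine gap _ ?_ ?_ ?_ f
    · intro j
      rw [← QuotientGroup.mk_pow, h5 j]
      rfl
    · intro i' j'
      obtain ⟨h1, h2⟩ := hc i' j'
      exact ⟨h1.map (QuotientGroup.mk' (N (k0 + i + 1))), h2.map (QuotientGroup.mk' (N (k0 + i + 1)))⟩
    · have h1 := congrArg (Subgroup.map (QuotientGroup.mk' (N (k0 + i + 1)))) hgen
      rw [MonoidHom.map_closure, ← Set.range_comp] at h1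
      refine h1.trans ?_
      rw [Subgroup.map_top_of_surjective _ (QuotientGroup.mk'_surjective _)]
  · intro i q
    exact bump_fib x (pr N hanti (hle0 i)) _ _ (fun g => rfl) ρ
      (fun u hu v hv h => ball_inj x N hinj hk0a hu hv h) q
  · intro i j q
    refine bump_lip x (pr N hanti (hle0 i)) _ (fun g hg g' hg' h =>
      hinj' _ (hle0 i) g hg g' hg' (hle0 i) h) (fun g => (QuotientGroup.mk (x j))⁻¹ * g) ?_ ?_ q
    · intro n g hg
      have h1 := hshiftL _ (x j) (gen_mem x j) n _ hg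
      rwa [mul_inv_cancel_left] at h1
    · intro n g hg
      exact hshiftL _ (x j)⁻¹ (gen_inv_mem x j) n _ hg
  · intro i j q
    refine bump_lip x (pr N hanti (hle0 i)) _ (fun g hg g' hg' h =>
      hinj' _ (hle0 i) g hg g' hg' (hle0 i) h) (fun g => g * (QuotientGroup.mk (x j))) ?_ ?_ q
    · intro n g hg
      have h1 := hshiftR _ (x j)⁻¹ (gen_inv_mem x j) n _ hg
      rwa [QuotientGroup.mk_inv, mul_inv_cancel_right] at h1
    · intro n g hg
      exact hshiftR _ (x j) (gen_mem x j) n _ hg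
  · -- small
    intro i c
    rw [Nat.card_eq_fintype_card, Fintype.card_subtype]
    have h1 := card_filter_comp (pr N hanti (hle0 i)) (pr_surjective N hanti _)
      (fun w => bump x (QuotientGroup.mk : Γ → Γ ⧸ N k0) ρ (c⁻¹ * w) ≠ 0)
    have h2 : (univ.filter (fun w =>
        bump x (QuotientGroup.mk : Γ → Γ ⧸ N k0) ρ (c⁻¹ * w) ≠ 0)).card ≤ 7 ^ ρ := by
      obtain ⟨hf, hcard⟩ := finite_ball_card x ρ
      refine le_trans ?_ hcard
      have h3 : ((univ.filter (fun w =>
          bump x (QuotientGroup.mk : Γ → Γ ⧸ N k0) ρ (c⁻¹ * w) ≠ 0) : Finset _) : Set _) ⊆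
          (fun w => c * QuotientGroup.mk w) '' ball x ρ := by
        intro w hw
        have hw' : bump x (QuotientGroup.mk : Γ → Γ ⧸ N k0) ρ (c⁻¹ * w) ≠ 0 := by
          simpa using hw
        by_contra hcon
        refine hw' (bump_eq_zero x _ ?_)
        rintro ⟨u, hu, he⟩
        refine hcon ⟨u, hu, ?_⟩
        simp only [he, mul_inv_cancel_left]
      rw [← Set.ncard_coe_finset]
      exact (Set.ncard_le_ncard h3 (hf.image _)).trans (Set.ncard_image_le hf)
    have h4 := card_ge N hanti hfive k0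
    have h5 : (0 : ℝ) < Fintype.card (Γ ⧸ N k0) := by
      exact_mod_cast Fintype.card_pos_iff.2 ⟨QuotientGroup.mk 1⟩
    have h6 : ((univ.filter (fun g => bump x (QuotientGroup.mk : Γ → Γ ⧸ N k0) ρ
        (c⁻¹ * pr N hanti (hle0 i) g) ≠ 0)).card : ℝ) * Fintype.card (Γ ⧸ N k0) ≤
        (b * Fintype.card (Γ ⧸ N (k0 + i + 1))) * Fintype.card (Γ ⧸ N k0) := by
      have h7 : ((univ.filter (fun g => bump x (QuotientGroup.mk : Γ → Γ ⧸ N k0) ρ
        (c⁻¹ * pr N hanti (hle0 i) g) ≠ 0)).card : ℝ) * Fintype.card (Γ ⧸ N k0) =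
        ((univ.filter (fun w => bump x (QuotientGroup.mk : Γ → Γ ⧸ N k0) ρ
          (c⁻¹ * w) ≠ 0)).card : ℝ) * Fintype.card (Γ ⧸ N (k0 + i + 1)) := by
        exact_mod_cast h1
      rw [h7]
      have h8 : ((univ.filter (fun w => bump x (QuotientGroup.mk : Γ → Γ ⧸ N k0) ρ
          (c⁻¹ * w) ≠ 0)).card : ℝ) ≤ 7 ^ ρ := by exact_mod_cast h2
      have h9 : (5 : ℝ) ^ k0 ≤ Fintype.card (Γ ⧸ N k0) := by exact_mod_cast h4
      calc _ ≤ (7 : ℝ) ^ ρ * Fintype.card (Γ ⧸ N (k0 + i + 1)) := by gcongr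
        _ ≤ (b * Fintype.card (Γ ⧸ N k0)) * Fintype.card (Γ ⧸ N (k0 + i + 1)) := by
          gcongr
          exact hk0b.trans (by gcongr)
        _ = _ := by ring
    have h10 := le_of_mul_le_mul_right h6 h5
    convert! h10 using 1
  · -- Yequi
    intro m i hlt δ hδ a
    have hkm : k0 + i + 1 ≤ k0 + m := by omega
    have hk0m : k0 ≤ k0 + m := by omega
    have hk0i : k0 ≤ k0 + i := by omega
    -- counting in `Y m`
    have e1 := hY m (fun z => pr N hanti hk0m z = a ∧ δ * pr N hanti hkm z ∉ Y i)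
    simp only [pr_pr] at e1
    -- counting in `P m`
    have e2 := card_filter_comp (pr N hanti (hmi m i hlt)) (pr_surjective N hanti _)
      (fun w => pr N hanti (hle0 i) w = a ∧ δ * w ∉ Y i)
    simp only [pr_pr] at e2
    -- translation by `δ`
    have e3 : (univ.filter (fun w => pr N hanti (hle0 i) w = a ∧ δ * w ∉ Y i)).card =
        (univ.filter (fun w => pr N hanti (hle0 i) w = a ∧ w ∉ Y i)).card := by
      refine Finset.card_bij' (fun w _ => δ * w) (fun w _ => δ⁻¹ * w) ?_ ?_ ?_ ?_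
      · intro w hw
        simp only [mem_filter, mem_univ, true_and] at hw ⊢
        refine ⟨?_, hw.2⟩
        rw [map_mul, hδ, one_mul]
        exact hw.1
      · intro w hw
        simp only [mem_filter, mem_univ, true_and] at hw ⊢
        refine ⟨?_, ?_⟩
        · rw [map_mul, map_inv, hδ, inv_one, one_mul]
          exact hw.1
        · rw [mul_inv_cancel_left]
          exact hw.2
      · intro w _
        exact inv_mul_cancel_left _ _
      · intro w _
        exact mul_inv_cancel_left _ _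
    -- one fifth of the fibre
    have e4 := hY i (fun z => pr N hanti hk0i z = a)
    simp only [pr_pr] at e4
    have e5 : (univ.filter (fun w => pr N hanti (hle0 i) w = a ∧ w ∉ Y i)).card +
        ((Y i).filter (fun w => pr N hanti (hle0 i) w = a)).card =
        (univ.filter (fun w => pr N hanti (hle0 i) w = a)).card := by
      have : ((Y i).filter (fun w => pr N hanti (hle0 i) w = a)) =
          univ.filter (fun w => pr N hanti (hle0 i) w = a ∧ w ∈ Y i) := by
        ext w
        simp only [mem_filter, mem_univ, true_and]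
        exact and_comm
      rw [this, ← Finset.card_union_of_disjoint]
      · congr 1
        ext w
        simp only [mem_union, mem_filter, mem_univ, true_and]
        tauto
      · rw [Finset.disjoint_left]
        intro w hw hw'
        simp only [mem_filter, mem_univ, true_and] at hw hw'
        exact hw.2 hw'.2
    have e6 := card_filter_comp (pr N hanti (hle0 i)) (pr_surjective N hanti _) (fun w => w = a)
    have e7 : (univ.filter (fun w => w = a)).card = 1 := by
      rw [Finset.card_eq_one]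
      exact ⟨a, by ext w; simp⟩
    rw [e7, one_mul] at e6
    have e8 := hYcard m
    have hpos : 0 < Fintype.card (Γ ⧸ N (k0 + i + 1)) :=
      Fintype.card_pos_iff.2 ⟨QuotientGroup.mk 1⟩
    have e9 : Nat.card {y : Γ ⧸ N (k0 + m + 1) // y ∈ Y m ∧ pr N hanti (hle0 m) y = a ∧
        δ * pr N hanti (hmi m i hlt) y ∉ Y i} =
        ((Y m).filter (fun y => pr N hanti (hle0 m) y = a ∧
          δ * pr N hanti (hmi m i hlt) y ∉ Y i)).card := by
      rw [Nat.card_eq_fintype_card, Fintype.card_subtype]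
      congr 1
      ext w
      simp only [mem_filter, mem_univ, true_and]
    rw [e9]
    exact final_arith hpos e1 e2 e3 e4 e5 e6 e8

end Vale.Agent.P090
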