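import Vale.Agent.Lib.P090.BlockSpace

/-!
P090: functionals with the properties of a finite-rank operator cannot exist on a block.
-/

namespace Vale.Agent.P090

open Finset

/-- a sign with values one and minus one -/
noncomputable def sg (w : ℝ) : ℝ := if 0 ≤ w then 1 else -1

theorem abs_sg (w : ℝ) : |sg w| = 1 := by unfold sg; split_ifs <;> norm_num

theorem sg_mul (w : ℝ) : sg w * w = |w| := by
  unfold sg
  split_ifs with h
  · rw [one_mul, abs_of_nonneg h]
  · rw [abs_of_neg (not_le.1 h)]; ring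

namespace Block

variable (B : Block)

theorem map_comb {m : ℕ} (F : (BPt B → ℝ) →ₗ[ℝ] ℝ) (c : B.Lab m → ℝ) (y : B.P m) :
    F (B.comb c y) = ∑ l, c l * F (B.bump l y) := by
  rw [comb, map_sum]
  exact sum_congr rfl fun l _ => by rw [map_smul, smul_eq_mul]

theorem tips_eq (χ : B.Q × Finset B.Q → ℝ) :
    B.tips χ = ∑ t, χ t • B.tips (Pi.single t 1) := by
  funext z
  rw [Finset.sum_apply]
  cases z with
  | tip a θ =>
    simp only [tips, Pi.smul_apply, smul_eq_mul]
    rw [Finset.sum_eq_single (a, θ)]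
    · simp
    · intro t _ ht
      rw [Pi.single_eq_of_ne ht.symm, mul_zero]
    · intro h; exact absurd (mem_univ _) h
  | sheet i y θ => simp [tips]

theorem map_tips (F : (BPt B → ℝ) →ₗ[ℝ] ℝ) (χ : B.Q × Finset B.Q → ℝ) :
    F (B.tips χ) = ∑ t, χ t * F (B.tips (Pi.single t 1)) := by
  rw [tips_eq, map_sum]
  exact sum_congr rfl fun l _ => by rw [map_smul, smul_eq_mul]

theorem contradiction {K r L : ℝ} (hL : 1 ≤ L) (hK : 1 ≤ K) (h1r : 1 ≤ r)
    (hKr : K / 2 ≤ r) (hr : r ≤ B.ρ) (hβ : B.β ≤ 1 / 2) (h4 : L * K / r ≤ 1 / 4)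
    (hn1 : Real.sqrt (480 * (2 / K * (L * r + 1)) * (2 / K * L + 2 / B.ρ * (L * r + 1)))
      ≤ 1 / 25)
    (hn2 : ((L * r + 1) / B.ρ + 1 / r) +
      2 * (Real.sqrt (480 * ((L * r + 1) / r + 1) * (L / r)) + ((L * r + 1) / r + 1) * B.β +
        Real.sqrt (480 * (2 / K * (L * r + 1)) * (2 / K * L + 2 / B.ρ * (L * r + 1)))) ≤ 1 / 2)
    (σ : BPt B → ((BPt B → ℝ) →ₗ[ℝ] ℝ))
    (S1 : ∀ f, BAdm B K r f → ∀ u v w, BEdge B K r u v w → |σ u f - σ v f| ≤ L * w)
    (S2 : ∀ f, BAdm B K r f → ∀ a θ, |σ (.tip a θ) f - f (.tip a θ)| ≤ 1)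
    (S3 : ∃ m, ∀ f, BAdm B K r f → (∀ a θ, f (.tip a θ) = 0) →
      (∀ i y θ, i < m → f (.sheet i y θ) = 0) → ∀ z, |σ z f| ≤ 1) : False := by
  obtain ⟨m, hm⟩ := S3
  have hK0 : 0 < K := by linarith
  have hr0 : 0 < r := by linarith
  have hρ := B.ρ_pos
  have hA : 0 ≤ L * r + 1 := by positivity
  -- transfer from the tip
  have P3 : ∀ f, BAdm B K r f → ∀ y θ,
      |σ (.sheet m y θ) f - f (.tip (B.π m y) θ)| ≤ L * r + 1 := by
    intro f hf y θ
    have h1 := S1 f hf _ _ _ (BEdge.arm m y θ)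
    have h2 := S2 f hf (B.π m y) θ
    calc _ = |(σ (.sheet m y θ) f - σ (.tip (B.π m y) θ) f) +
          (σ (.tip (B.π m y) θ) f - f (.tip (B.π m y) θ))| := by congr 1; ring
      _ ≤ _ := (abs_add_le _ _).trans (add_le_add h1 h2)
  refine numeric_contradiction (G := B.P m) (Q := B.Q) (Lam := B.Lab m)
    (T := B.Q × Finset B.Q) (B.x m) (B.hasGap m) (B.π m)
    (fun θ l y => σ (.sheet m y θ) (B.bump l y))
    (fun θ t y => σ (.sheet m y θ) (B.tips (Pi.single t 1)))
    (fun l => l.2.1)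
    (fun l y => l.2.2.1 * B.ψ m l.1 l.1.2 y ∉ B.Y l.1)
    (B.Y m)
    (fun θ b t y => lampSign b θ * lampSign b t.2 * B.ωQ (t.1⁻¹ * B.π m y))
    (fun b y => B.ωQ (b⁻¹ * B.π m y) = 0)
    (2 / K * (L * r + 1)) ((L * r + 1) / r + 1)
    (2 / K * L + 2 / B.ρ * (L * r + 1)) (L / r) ((L * r + 1) / B.ρ + 1 / r) B.β
    ?_ ?_ ?_ ?_ ?_ ?_ ?_ hβ ?_ ?_ (B.Ycard m) ?_ hn1 hn2
  · -- hW1
    intro θ y
    have h1 := P3 _ (B.badm_comb hK hKr hr (fun l => sg (σ (.sheet m y θ) (B.bump l y)))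
      (fun l => (abs_sg _).le) y) y θ
    rw [map_smul, map_comb, Pi.smul_apply, comb_tip, smul_zero, sub_zero, smul_eq_mul,
      sum_congr rfl fun l _ => sg_mul (σ (.sheet m y θ) (B.bump l y)), abs_mul,
      abs_of_nonneg (by positivity : 0 ≤ K / 2),
      abs_of_nonneg (sum_nonneg fun l _ => abs_nonneg _)] at h1
    calc _ = 2 / K * (K / 2 * ∑ l, |σ (.sheet m y θ) (B.bump l y)|) := by field_simp
      _ ≤ _ := mul_le_mul_of_nonneg_left h1 (by positivity)
  · -- hW2
    intro θ y j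
    set c : B.Lab m → ℝ := fun l => sg (σ (.sheet m (y * B.x m j) θ)
      (B.bump l (y * B.x m j)) - σ (.sheet m y θ) (B.bump l y)) with hc
    have hc1 : ∀ l, |c l| ≤ 1 := fun l => (abs_sg _).le
    have h1 : ∑ l, |σ (.sheet m (y * B.x m j) θ) (B.bump l (y * B.x m j)) -
        σ (.sheet m y θ) (B.bump l y)| =
        (σ (.sheet m (y * B.x m j) θ) (B.comb c (y * B.x m j)) -
          σ (.sheet m y θ) (B.comb c (y * B.x m j))) +
        σ (.sheet m y θ) (B.comb c (y * B.x m j) - B.comb c y) := by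
      rw [map_sub, sub_add_sub_cancel, map_comb, map_comb, ← sum_sub_distrib]
      refine sum_congr rfl fun l _ => ?_
      rw [← mul_sub]
      exact (sg_mul _).symm
    rw [h1]
    refine add_le_add ?_ ?_
    · have h2 := S1 _ (B.badm_comb hK hKr hr c hc1 (y * B.x m j)) _ _ _
        (BEdge.move m y θ j)
      rw [map_smul, map_smul, smul_eq_mul, smul_eq_mul, ← mul_sub, abs_mul,
        abs_of_nonneg (by positivity : 0 ≤ K / 2), mul_one, abs_sub_comm] at h2
      calc _ ≤ |σ (.sheet m (y * B.x m j) θ) (B.comb c (y * B.x m j)) -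
          σ (.sheet m y θ) (B.comb c (y * B.x m j))| := le_abs_self _
        _ = 2 / K * (K / 2 * |σ (.sheet m (y * B.x m j) θ) (B.comb c (y * B.x m j)) -
          σ (.sheet m y θ) (B.comb c (y * B.x m j))|) := by field_simp
        _ ≤ _ := mul_le_mul_of_nonneg_left h2 (by positivity)
    · have h2 := P3 _ (B.badm_shift hK h1r hr c hc1 y j) y θ
      rw [map_smul, Pi.smul_apply, Pi.sub_apply, comb_tip, comb_tip, sub_zero, smul_zero,
        sub_zero, smul_eq_mul, abs_mul, abs_of_nonneg (by positivity : 0 ≤ B.ρ / 2)] at h2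
      calc _ ≤ |σ (.sheet m y θ) (B.comb c (y * B.x m j) - B.comb c y)| := le_abs_self _
        _ = 2 / B.ρ * (B.ρ / 2 *
            |σ (.sheet m y θ) (B.comb c (y * B.x m j) - B.comb c y)|) := by field_simp
        _ ≤ _ := mul_le_mul_of_nonneg_left h2 (by positivity)
  · -- hV1
    intro θ y
    set χ : B.Q × Finset B.Q → ℝ := fun t => sg (σ (.sheet m y θ)
      (B.tips (Pi.single t 1))) with hχ
    have hχ1 : ∀ t, |χ t| ≤ 1 := fun t => (abs_sg _).le
    have h1 := P3 _ (B.badm_tips hK0.le hr0.le hr χ hχ1) y θ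
    rw [map_smul, map_tips, Pi.smul_apply, smul_eq_mul, smul_eq_mul, ← mul_sub, abs_mul,
      abs_of_nonneg hr0.le] at h1
    have h2 : ∑ t, |σ (.sheet m y θ) (B.tips (Pi.single t 1))| =
        ∑ t, χ t * σ (.sheet m y θ) (B.tips (Pi.single t 1)) :=
      sum_congr rfl fun t _ => (sg_mul _).symm
    rw [h2]
    have h3 : |B.tips χ (.tip (B.π m y) θ)| ≤ 1 := hχ1 _
    have h5 : |∑ t, χ t * σ (.sheet m y θ) (B.tips (Pi.single t 1)) -
        B.tips χ (.tip (B.π m y) θ)| ≤ (L * r + 1) / r := by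
      rw [le_div_iff₀ hr0, mul_comm]; exact h1
    have h6 := (abs_le.1 h3).2
    have h7 := (abs_le.1 h5).2
    linarith
  · -- hV2
    intro θ y j
    set χ : B.Q × Finset B.Q → ℝ := fun t => sg (σ (.sheet m (y * B.x m j) θ)
      (B.tips (Pi.single t 1)) - σ (.sheet m y θ) (B.tips (Pi.single t 1))) with hχ
    have hχ1 : ∀ t, |χ t| ≤ 1 := fun t => (abs_sg _).le
    have h1 := S1 _ (B.badm_tips hK0.le hr0.le hr χ hχ1) _ _ _ (BEdge.move m y θ j)
    rw [map_smul, map_smul, smul_eq_mul, smul_eq_mul, ← mul_sub, abs_mul,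
      abs_of_nonneg hr0.le, mul_one, abs_sub_comm] at h1
    have h2 : ∑ t, |σ (.sheet m (y * B.x m j) θ) (B.tips (Pi.single t 1)) -
        σ (.sheet m y θ) (B.tips (Pi.single t 1))| =
        σ (.sheet m (y * B.x m j) θ) (B.tips χ) - σ (.sheet m y θ) (B.tips χ) := by
      rw [map_tips, map_tips, ← sum_sub_distrib]
      refine sum_congr rfl fun t _ => ?_
      rw [← mul_sub]
      exact (sg_mul _).symm
    rw [h2, le_div_iff₀ hr0, mul_comm]
    exact (mul_le_mul_of_nonneg_left (le_abs_self _) hr0.le).trans h1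
  · -- hs1
    intro θ b t y
    exact B.abs_ss_le _ _ _ _
  · -- hs2
    intro θ b t
    classical
    calc ∑ y, |lampSign b θ * lampSign b t.2 * B.ωQ (t.1⁻¹ * B.π m y)|
        ≤ ∑ y, (if B.ωQ (t.1⁻¹ * B.π m y) ≠ 0 then (1 : ℝ) else 0) := by
          refine sum_le_sum fun y _ => ?_
          split_ifs with h
          · exact B.abs_ss_le _ _ _ _
          · rw [not_not.1 h, mul_zero, abs_zero]
      _ = (Nat.card {y : B.P m // B.ωQ (t.1⁻¹ * B.π m y) ≠ 0} : ℝ) := by
          rw [Finset.sum_boole, Nat.card_eq_fintype_card, Fintype.card_subtype]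
      _ ≤ _ := B.small m t.1
  · -- hfar
    intro b
    exact B.small m b
  · -- h4
    intro θ b y hfar
    have h1 := P3 _ (B.badm_lampFn hK0.le hr0.le hfar θ) y θ
    have h2 : B.lampFn b θ (B.π m y) (.tip (B.π m y) θ) = 1 := by
      simp only [lampFn]
      rw [lampSign_mul_self, inv_mul_cancel, B.ωQ_one, one_mul]
    rw [map_smul, Pi.smul_apply, smul_eq_mul, smul_eq_mul, ← mul_sub, abs_mul,
      abs_of_nonneg hρ.le, h2, B.lampFn_eq y b θ, map_add, map_add, map_comb,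
      map_tips] at h1
    have h3 := hm _ (B.badm_lampFar hK0.le hr0.le hr m hfar θ)
      (fun a θ' => by simp [lampFar])
      (fun i y' θ' hi => by
        have : ¬ m ≤ i := not_le.2 hi
        simp [lampFar, this]) (.sheet m y θ)
    rw [map_smul, smul_eq_mul, abs_mul, abs_of_nonneg hr0.le] at h3
    set X := ∑ l : B.Lab m, lampSign b θ * lampSign b l.2.1 *
      σ (.sheet m y θ) (B.bump l y) with hX
    set Z := ∑ t : B.Q × Finset B.Q, lampSign b θ * lampSign b t.2 *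
      B.ωQ (t.1⁻¹ * B.π m y) * σ (.sheet m y θ) (B.tips (Pi.single t 1)) with hZ
    set U := σ (.sheet m y θ) (B.lampFar m b θ (B.π m y)) with hU
    have h5 : |X + Z + U - 1| ≤ (L * r + 1) / B.ρ := by
      rw [le_div_iff₀ hρ, mul_comm]; exact h1
    have h6 : |U| ≤ 1 / r := by
      rw [le_div_iff₀ hr0, mul_comm]; exact h3
    calc |X + Z - 1| = |(X + Z + U - 1) - U| := by congr 1; ring
      _ ≤ |X + Z + U - 1| + |U| := abs_sub _ _
      _ ≤ _ := add_le_add h5 h6
  · -- h5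
    intro θ y hy F hF
    have h1 := S1 _ (B.badm_frozen hK0.le hr0.le hr y θ) _ _ _ (BEdge.toggle m y θ hy)
    rw [map_smul, map_smul, smul_eq_mul, smul_eq_mul, ← mul_sub, abs_mul,
      abs_of_nonneg hr0.le, map_comb, map_comb, ← sum_sub_distrib] at h1
    have h2 : ∑ l ∈ F, lampSign (B.π m y) θ * lampSign (B.π m y) l.2.1 *
        (σ (.sheet m y θ) (B.bump l y) -
          σ (.sheet m y (symmDiff θ {B.π m y})) (B.bump l y)) =
        ∑ l, (B.frozenCoef y θ l * σ (.sheet m y θ) (B.bump l y) -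
          B.frozenCoef y θ l * σ (.sheet m y (symmDiff θ {B.π m y})) (B.bump l y)) := by
      rw [← Finset.sum_subset (Finset.subset_univ F)]
      · refine sum_congr rfl fun l hl => ?_
        have := (hF l).1 hl
        rw [frozenCoef, if_pos this]
        ring
      · intro l _ hl
        have h3 : ¬ (l.2.2.1 * B.ψ m l.1 l.1.2 y ∉ B.Y l.1) := fun h => hl ((hF l).2 h)
        rw [frozenCoef, if_neg h3]
        ring
    rw [h2]
    calc _ ≤ |_| := le_abs_self _
      _ ≤ L * K / r := by rw [le_div_iff₀ hr0, mul_comm]; exact h1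
      _ ≤ 1 / 4 := h4
  · -- heq
    intro l a
    exact B.Yequi m l.1 l.1.2 l.2.2.1 l.2.2.2 a

end Block

end Vale.Agent.P090
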