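import Mathlib

/-!
P090: a metric defined by a family of admissible functions.
-/

namespace Vale.Agent.P090

/-- A bound for the values and a weighted edge relation. -/
structure EdgeData (X : Type*) where
  B : X → ℝ
  E : X → X → ℝ → Prop
  one_le_B : ∀ z, 1 ≤ B z
  one_le_w : ∀ u v w, E u v w → 1 ≤ w

namespace EdgeData

variable {X : Type*} (D : EdgeData X)

/-- admissible functions -/
def Adm (f : X → ℝ) : Prop :=
  (∀ z, |f z| ≤ D.B z) ∧ ∀ u v w, D.E u v w → |f u - f v| ≤ w

/-- the values of admissible functions differences -/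
def diffs (u v : X) : Set ℝ := {r | ∃ f, D.Adm f ∧ |f u - f v| = r}

theorem adm_zero : D.Adm fun _ => 0 :=
  ⟨fun z => by simpa using zero_le_one.trans (D.one_le_B z),
    fun u v w h => by simpa using zero_le_one.trans (D.one_le_w u v w h)⟩

theorem diffs_bddAbove (u v : X) : BddAbove (D.diffs u v) := by
  refine ⟨D.B u + D.B v, ?_⟩
  rintro r ⟨f, hf, rfl⟩
  exact (abs_sub _ _).trans (add_le_add (hf.1 u) (hf.1 v))

theorem diffs_nonempty (u v : X) : (D.diffs u v).Nonempty := ⟨_, _, D.adm_zero, rfl⟩

/-- the distance -/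
noncomputable def d (u v : X) : ℝ := sSup (D.diffs u v)

theorem le_d {f : X → ℝ} (hf : D.Adm f) (u v : X) : |f u - f v| ≤ D.d u v :=
  le_csSup (D.diffs_bddAbove u v) ⟨f, hf, rfl⟩

theorem d_le {u v : X} {r : ℝ} (h : ∀ f, D.Adm f → |f u - f v| ≤ r) : D.d u v ≤ r := by
  refine csSup_le (D.diffs_nonempty u v) ?_
  rintro _ ⟨f, hf, rfl⟩
  exact h f hf

theorem d_edge {u v : X} {w : ℝ} (h : D.E u v w) : D.d u v ≤ w :=
  D.d_le fun _ hf => hf.2 u v w h

theorem d_le_B (u v : X) : D.d u v ≤ D.B u + D.B v :=
  D.d_le fun _ hf => (abs_sub _ _).trans (add_le_add (hf.1 u) (hf.1 v))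

theorem adm_indicator [DecidableEq X] (z : X) : D.Adm fun u => if u = z then 1 else 0 := by
  refine ⟨fun u => ?_, fun u v w h => ?_⟩
  · dsimp only
    split_ifs
    · simpa using D.one_le_B u
    · simpa using zero_le_one.trans (D.one_le_B u)
  · have h1 := D.one_le_w u v w h
    dsimp only
    split_ifs <;> simp <;> linarith

theorem one_le_d {u v : X} (h : u ≠ v) : 1 ≤ D.d u v := by
  classical
  have := D.le_d (D.adm_indicator u) u v
  simpa [h.symm] using this

/-- the metric space -/
@[reducible] noncomputable def metric : MetricSpace X where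
  dist := D.d
  dist_self u := le_antisymm (D.d_le fun _ _ => by simp)
    (by simpa using D.le_d D.adm_zero u u)
  dist_comm u v := le_antisymm
    (D.d_le fun f hf => by rw [abs_sub_comm]; exact D.le_d hf v u)
    (D.d_le fun f hf => by rw [abs_sub_comm]; exact D.le_d hf u v)
  dist_triangle u v w := D.d_le fun f hf =>
    (abs_sub_le (f u) (f v) (f w)).trans (add_le_add (D.le_d hf u v) (D.le_d hf v w))
  eq_of_dist_eq_zero := by
    intro u v h
    by_contra hne
    have := D.one_le_d hne
    linarith

end EdgeData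

end Vale.Agent.P090
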