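import Vale.Agent.Lib.P090.Block
import Vale.Agent.Lib.P090.EdgeMetric

/-!
P090: points and edges of one block; test functions and their admissibility.
-/

namespace Vale.Agent.P090

open Finset

/-- Points of one block: tips and sheet points. -/
inductive BPt (B : Block) : Type
  | tip (a : B.Q) (θ : Finset B.Q) : BPt B
  | sheet (i : ℕ) (y : B.P i) (θ : Finset B.Q) : BPt B

/-- Weighted edges of one block. -/
inductive BEdge (B : Block) (K r : ℝ) : BPt B → BPt B → ℝ → Prop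
  | move (i : ℕ) (y : B.P i) (θ : Finset B.Q) (j : Fin 3) :
      BEdge B K r (.sheet i y θ) (.sheet i (y * B.x i j) θ) 1
  | toggle (i : ℕ) (y : B.P i) (θ : Finset B.Q) (h : y ∈ B.Y i) :
      BEdge B K r (.sheet i y θ) (.sheet i y (symmDiff θ {B.π i y})) K
  | arm (i : ℕ) (y : B.P i) (θ : Finset B.Q) :
      BEdge B K r (.sheet i y θ) (.tip (B.π i y) θ) r

/-- Block admissible functions. -/
def BAdm (B : Block) (K r : ℝ) (f : BPt B → ℝ) : Prop :=
  (∀ z, |f z| ≤ B.ρ) ∧ ∀ u v w, BEdge B K r u v w → |f u - f v| ≤ w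

theorem lampSign_mul_self {Q : Type*} [DecidableEq Q] (b : Q) (θ : Finset Q) :
    lampSign b θ * lampSign b θ = 1 := by
  unfold lampSign; split_ifs <;> norm_num

theorem abs_lampSign {Q : Type*} [DecidableEq Q] (b : Q) (θ : Finset Q) :
    |lampSign b θ| = 1 := by
  unfold lampSign; split_ifs <;> norm_num

theorem lampSign_symmDiff_of_ne {Q : Type*} [DecidableEq Q] {b c : Q} (h : c ≠ b)
    (θ : Finset Q) : lampSign b (symmDiff θ {c}) = lampSign b θ := by
  unfold lampSign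
  have : b ∈ symmDiff θ {c} ↔ b ∈ θ := by
    simp [Finset.mem_symmDiff, h.symm]
  simp only [this]

namespace Block

variable (B : Block)

theorem ωQ_nonneg (q : B.Q) : 0 ≤ B.ωQ q := by
  rw [← B.fib 0 q]
  exact sum_nonneg fun g _ => B.ω_nonneg 0 g

theorem abs_ωQ_le (q : B.Q) : |B.ωQ q| ≤ 1 := by
  rw [abs_of_nonneg (B.ωQ_nonneg q)]
  exact B.ωQ_le q

theorem lipQ (j : Fin 3) (q : B.Q) : |B.ωQ ((B.xQ j)⁻¹ * q) - B.ωQ q| ≤ 1 / B.ρ := by
  have h1 : ∑ g with B.π 0 g = q, B.ω 0 ((B.x 0 j)⁻¹ * g) = B.ωQ ((B.xQ j)⁻¹ * q) := by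
    rw [← B.fib 0 ((B.xQ j)⁻¹ * q)]
    refine sum_bij' (fun g _ => (B.x 0 j)⁻¹ * g) (fun g _ => B.x 0 j * g) ?_ ?_ ?_ ?_ ?_
    · intro g hg
      simp only [mem_filter, mem_univ, true_and] at hg ⊢
      rw [map_mul, map_inv, B.π_x, hg]
    · intro g hg
      simp only [mem_filter, mem_univ, true_and] at hg ⊢
      rw [map_mul, B.π_x, hg]; group
    · intro g _; group
    · intro g _; group
    · intro g _; rfl
  rw [← h1, ← B.fib 0 q, ← sum_sub_distrib]
  exact (abs_sum_le_sum_abs _ _).trans (B.lipL 0 j q)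

/-- a bump on sheet `i` with lamp configuration `θ'`, centered at `yh` -/
noncomputable def phi (i : ℕ) (θ' : Finset B.Q) (yh : B.P i) : BPt B → ℝ
  | .tip _ _ => 0
  | .sheet i' y' θ'' =>
    if h : i' = i then (if θ'' = θ' then B.ω i ((h ▸ y')⁻¹ * yh) else 0) else 0

/-- Labels: target sheet, lamp configuration, kernel element. -/
abbrev Lab (m : ℕ) : Type := Σ i : Fin m, Finset B.Q × {δ : B.P i // B.π i δ = 1}

/-- the bump with label `l` seen from `y`. -/
noncomputable def bump {m : ℕ} (l : B.Lab m) (y : B.P m) : BPt B → ℝ :=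
  B.phi l.1 l.2.1 (l.2.2.1 * B.ψ m l.1 l.1.2 y)

/-- combination of bumps -/
noncomputable def comb {m : ℕ} (c : B.Lab m → ℝ) (y : B.P m) : BPt B → ℝ :=
  ∑ l, c l • B.bump l y

theorem comb_tip {m : ℕ} (c : B.Lab m → ℝ) (y : B.P m) (a : B.Q) (θ : Finset B.Q) :
    B.comb c y (.tip a θ) = 0 := by
  simp [comb, bump, phi, Finset.sum_apply]

theorem comb_sheet_ge {m : ℕ} (c : B.Lab m → ℝ) (y : B.P m) {i : ℕ} (hi : m ≤ i)
    (y' : B.P i) (θ : Finset B.Q) : B.comb c y (.sheet i y' θ) = 0 := by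
  rw [comb, Finset.sum_apply]
  refine sum_eq_zero fun l _ => ?_
  have : i ≠ (l.1 : ℕ) := fun h => by have := l.1.2; omega
  simp [bump, phi, this]

theorem comb_sheet {m : ℕ} (c : B.Lab m → ℝ) (y : B.P m) {i : ℕ} (hi : i < m)
    (y' : B.P i) (θ : Finset B.Q) :
    B.comb c y (.sheet i y' θ) =
      ∑ δ : {δ : B.P i // B.π i δ = 1},
        c ⟨⟨i, hi⟩, θ, δ⟩ * B.ω i (y'⁻¹ * (δ.1 * B.ψ m i hi y)) := by
  rw [comb, Finset.sum_apply, Fintype.sum_sigma, Finset.sum_eq_single (⟨i, hi⟩ : Fin m)]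
  · rw [Fintype.sum_prod_type, Finset.sum_eq_single θ]
    · refine sum_congr rfl fun δ _ => ?_
      simp [bump, phi]
    · intro θ' _ hθ'
      refine sum_eq_zero fun δ _ => ?_
      simp [bump, phi, hθ'.symm]
    · intro h; exact absurd (mem_univ _) h
  · intro i' _ hi'
    refine sum_eq_zero fun l _ => ?_
    have : i ≠ (i' : ℕ) := fun h => hi' (Fin.ext h.symm)
    simp [bump, phi, this]
  · intro h; exact absurd (mem_univ _) h

/-- reindexing sums over the kernel by sums over a fibre -/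
theorem sum_ker {m i : ℕ} (hi : i < m) (y : B.P m) (y' : B.P i) (F : B.P i → ℝ) :
    ∑ δ : {δ : B.P i // B.π i δ = 1}, F (y'⁻¹ * (δ.1 * B.ψ m i hi y)) =
      ∑ g with B.π i g = (B.π i y')⁻¹ * B.π m y, F g := by
  refine sum_bij' (fun δ _ => y'⁻¹ * (δ.1 * B.ψ m i hi y))
    (fun g hg => ⟨y' * g * (B.ψ m i hi y)⁻¹, ?_⟩) ?_ ?_ ?_ ?_ ?_
  · simp only [mem_filter, mem_univ, true_and] at hg
    rw [map_mul, map_mul, map_inv, B.π_ψ, hg]; group
  · intro δ _
    simp only [mem_filter, mem_univ, true_and]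
    rw [map_mul, map_mul, map_inv, B.π_ψ, δ.2, one_mul]
  · intro g hg; exact mem_univ _
  · intro δ _; apply Subtype.ext; simp only; group
  · intro g hg; simp only; group
  · intro δ _; rfl

theorem inv_pos_rho : 0 < 1 / B.ρ := div_pos one_pos B.ρ_pos

/-- a combination with coefficients bounded by one is bounded by one -/
theorem abs_comb_le {m : ℕ} (c : B.Lab m → ℝ) (hc : ∀ l, |c l| ≤ 1) (y : B.P m)
    (z : BPt B) : |B.comb c y z| ≤ 1 := by
  match z with
  | .tip a θ => rw [comb_tip, abs_zero]; exact zero_le_one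
  | .sheet i y' θ =>
    rcases lt_or_ge i m with hi | hi
    · rw [comb_sheet _ _ _ hi]
      calc |∑ δ : {δ : B.P i // B.π i δ = 1},
            c ⟨⟨i, hi⟩, θ, δ⟩ * B.ω i (y'⁻¹ * (δ.1 * B.ψ m i hi y))|
          ≤ ∑ δ : {δ : B.P i // B.π i δ = 1}, B.ω i (y'⁻¹ * (δ.1 * B.ψ m i hi y)) := by
            refine (abs_sum_le_sum_abs _ _).trans (sum_le_sum fun δ _ => ?_)
            rw [abs_mul, abs_of_nonneg (B.ω_nonneg _ _)]
            exact mul_le_of_le_one_left (B.ω_nonneg _ _) (hc _)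
        _ = B.ωQ ((B.π i y')⁻¹ * B.π m y) := by rw [sum_ker B hi y y' (B.ω i), B.fib]
        _ ≤ 1 := B.ωQ_le _
    · rw [comb_sheet_ge _ _ _ hi, abs_zero]; exact zero_le_one

/-- a combination has slope at most `1 / ρ` along moves -/
theorem abs_comb_move_le {m : ℕ} (c : B.Lab m → ℝ) (hc : ∀ l, |c l| ≤ 1) (y : B.P m)
    (i : ℕ) (y' : B.P i) (θ : Finset B.Q) (j : Fin 3) :
    |B.comb c y (.sheet i y' θ) - B.comb c y (.sheet i (y' * B.x i j) θ)| ≤ 1 / B.ρ := by
  rcases lt_or_ge i m with hi | hi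
  · rw [comb_sheet _ _ _ hi, comb_sheet _ _ _ hi, ← sum_sub_distrib]
    calc |∑ δ : {δ : B.P i // B.π i δ = 1},
          (c ⟨⟨i, hi⟩, θ, δ⟩ * B.ω i (y'⁻¹ * (δ.1 * B.ψ m i hi y)) -
            c ⟨⟨i, hi⟩, θ, δ⟩ * B.ω i ((y' * B.x i j)⁻¹ * (δ.1 * B.ψ m i hi y)))|
        ≤ ∑ δ : {δ : B.P i // B.π i δ = 1},
          (fun g => |B.ω i ((B.x i j)⁻¹ * g) - B.ω i g|)
            (y'⁻¹ * (δ.1 * B.ψ m i hi y)) := by
          refine (abs_sum_le_sum_abs _ _).trans (sum_le_sum fun δ _ => ?_)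
          rw [← mul_sub, abs_mul, abs_sub_comm]
          have h1 : (y' * B.x i j)⁻¹ * (δ.1 * B.ψ m i hi y)
              = (B.x i j)⁻¹ * (y'⁻¹ * (δ.1 * B.ψ m i hi y)) := by group
          rw [h1]
          exact mul_le_of_le_one_left (abs_nonneg _) (hc _)
      _ = _ := sum_ker B hi y y' (fun g => |B.ω i ((B.x i j)⁻¹ * g) - B.ω i g|)
      _ ≤ 1 / B.ρ := B.lipL i j _
  · rw [comb_sheet_ge _ _ _ hi, comb_sheet_ge _ _ _ hi, sub_zero, abs_zero]
    exact B.inv_pos_rho.le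

/-- moving the center changes a combination by at most `1 / ρ` -/
theorem abs_comb_shift_le {m : ℕ} (c : B.Lab m → ℝ) (hc : ∀ l, |c l| ≤ 1) (y : B.P m)
    (j : Fin 3) (z : BPt B) :
    |B.comb c (y * B.x m j) z - B.comb c y z| ≤ 1 / B.ρ := by
  match z with
  | .tip a θ => rw [comb_tip, comb_tip, sub_zero, abs_zero]; exact B.inv_pos_rho.le
  | .sheet i y' θ =>
    rcases lt_or_ge i m with hi | hi
    · rw [comb_sheet _ _ _ hi, comb_sheet _ _ _ hi, ← sum_sub_distrib]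
      calc |∑ δ : {δ : B.P i // B.π i δ = 1},
            (c ⟨⟨i, hi⟩, θ, δ⟩ * B.ω i (y'⁻¹ * (δ.1 * B.ψ m i hi (y * B.x m j))) -
              c ⟨⟨i, hi⟩, θ, δ⟩ * B.ω i (y'⁻¹ * (δ.1 * B.ψ m i hi y)))|
          ≤ ∑ δ : {δ : B.P i // B.π i δ = 1},
            (fun g => |B.ω i (g * B.x i j) - B.ω i g|)
              (y'⁻¹ * (δ.1 * B.ψ m i hi y)) := by
            refine (abs_sum_le_sum_abs _ _).trans (sum_le_sum fun δ _ => ?_)
            rw [← mul_sub, abs_mul]
            have h1 : y'⁻¹ * (δ.1 * B.ψ m i hi (y * B.x m j))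
                = (y'⁻¹ * (δ.1 * B.ψ m i hi y)) * B.x i j := by
              rw [map_mul, B.ψ_x]; group
            rw [h1]
            exact mul_le_of_le_one_left (abs_nonneg _) (hc _)
        _ = _ := sum_ker B hi y y' (fun g => |B.ω i (g * B.x i j) - B.ω i g|)
        _ ≤ 1 / B.ρ := B.lipR i j _
    · rw [comb_sheet_ge _ _ _ hi, comb_sheet_ge _ _ _ hi, sub_zero, abs_zero]
      exact B.inv_pos_rho.le

/-- functions on tips -/
def tips (χ : B.Q × Finset B.Q → ℝ) : BPt B → ℝ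
  | .tip a θ => χ (a, θ)
  | .sheet _ _ _ => 0

/-- signed lamp test function -/
noncomputable def lampFn (b : B.Q) (θ : Finset B.Q) (a : B.Q) : BPt B → ℝ
  | .tip a' θ' => lampSign b θ * lampSign b θ' * B.ωQ (a'⁻¹ * a)
  | .sheet i y' θ' => lampSign b θ * lampSign b θ' * B.ωQ ((B.π i y')⁻¹ * a)

/-- the part of the signed lamp function on far sheets -/
noncomputable def lampFar (m : ℕ) (b : B.Q) (θ : Finset B.Q) (a : B.Q) : BPt B → ℝ
  | .tip _ _ => 0
  | .sheet i y' θ' =>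
    if m ≤ i then lampSign b θ * lampSign b θ' * B.ωQ ((B.π i y')⁻¹ * a) else 0

variable {K r : ℝ}

theorem badm_comb (hK : 1 ≤ K) (hKr : K / 2 ≤ r) (hr : r ≤ B.ρ) {m : ℕ}
    (c : B.Lab m → ℝ) (hc : ∀ l, |c l| ≤ 1) (y : B.P m) :
    BAdm B K r ((K / 2) • B.comb c y) := by
  have hK2 : 0 ≤ K / 2 := by linarith
  have hbd : ∀ z, |((K / 2) • B.comb c y) z| ≤ K / 2 := by
    intro z
    rw [Pi.smul_apply, smul_eq_mul, abs_mul, abs_of_nonneg hK2]
    exact mul_le_of_le_one_right hK2 (B.abs_comb_le c hc y z)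
  refine ⟨fun z => (hbd z).trans (hKr.trans hr), ?_⟩
  intro u v w h
  cases h with
  | move i y' θ j =>
    rw [Pi.smul_apply, Pi.smul_apply, smul_eq_mul, smul_eq_mul, ← mul_sub, abs_mul,
      abs_of_nonneg hK2]
    calc K / 2 * _ ≤ K / 2 * (1 / B.ρ) :=
          mul_le_mul_of_nonneg_left (B.abs_comb_move_le c hc y i y' θ j) hK2
      _ ≤ 1 := by
          rw [mul_one_div, div_le_one B.ρ_pos]; exact hKr.trans hr
  | toggle i y' θ h =>
    calc _ ≤ |((K / 2) • B.comb c y) (.sheet i y' θ)| +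
          |((K / 2) • B.comb c y) (.sheet i y' (symmDiff θ {B.π i y'}))| := abs_sub _ _
      _ ≤ K / 2 + K / 2 := add_le_add (hbd _) (hbd _)
      _ = K := by ring
  | arm i y' θ =>
    have h0 : ((K / 2) • B.comb c y) (.tip (B.π i y') θ) = 0 := by
      rw [Pi.smul_apply, comb_tip, smul_zero]
    rw [h0, sub_zero]
    exact (hbd _).trans hKr

theorem badm_shift (hK : 1 ≤ K) (h1r : 1 ≤ r) (hr : r ≤ B.ρ) {m : ℕ}
    (c : B.Lab m → ℝ) (hc : ∀ l, |c l| ≤ 1) (y : B.P m) (j : Fin 3) :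
    BAdm B K r ((B.ρ / 2) • (B.comb c (y * B.x m j) - B.comb c y)) := by
  have hρ := B.ρ_pos
  have hρ2 : 0 ≤ B.ρ / 2 := by linarith
  have hbd : ∀ z, |((B.ρ / 2) • (B.comb c (y * B.x m j) - B.comb c y)) z| ≤ 1 / 2 := by
    intro z
    rw [Pi.smul_apply, smul_eq_mul, abs_mul, abs_of_nonneg hρ2, Pi.sub_apply]
    calc _ ≤ B.ρ / 2 * (1 / B.ρ) :=
          mul_le_mul_of_nonneg_left (B.abs_comb_shift_le c hc y j z) hρ2
      _ = 1 / 2 := by field_simp
  refine ⟨fun z => (hbd z).trans (by linarith), ?_⟩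
  intro u v w h
  have h1 : 1 ≤ w := by cases h <;> first | exact le_rfl | exact hK | exact h1r
  calc _ ≤ _ + _ := abs_sub _ _
    _ ≤ 1 / 2 + 1 / 2 := add_le_add (hbd _) (hbd _)
    _ ≤ w := by linarith

theorem badm_tips (hK : 0 ≤ K) (h0r : 0 ≤ r) (hr : r ≤ B.ρ) (χ : B.Q × Finset B.Q → ℝ)
    (hχ : ∀ t, |χ t| ≤ 1) : BAdm B K r (r • B.tips χ) := by
  have hbd : ∀ z, |(r • B.tips χ) z| ≤ r := by
    intro z
    rw [Pi.smul_apply, smul_eq_mul, abs_mul, abs_of_nonneg h0r]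
    refine mul_le_of_le_one_right h0r ?_
    cases z with
    | tip a θ => exact hχ _
    | sheet i y θ => simp [tips]
  have hs : ∀ i y θ, (r • B.tips χ) (.sheet i y θ) = 0 := by
    intro i y θ
    simp [tips]
  refine ⟨fun z => (hbd z).trans hr, ?_⟩
  intro u v w h
  cases h with
  | move i y' θ j => rw [hs, hs, sub_zero, abs_zero]; exact zero_le_one
  | toggle i y' θ h => rw [hs, hs, sub_zero, abs_zero]; exact hK
  | arm i y' θ => rw [hs, zero_sub, abs_neg]; exact hbd _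

theorem abs_ss_le (b : B.Q) (θ θ' : Finset B.Q) (q : B.Q) :
    |lampSign b θ * lampSign b θ' * B.ωQ q| ≤ 1 := by
  rw [abs_mul, abs_mul, abs_lampSign, abs_lampSign, one_mul, one_mul]
  exact B.abs_ωQ_le q

theorem lamp_move (b : B.Q) (θ : Finset B.Q) (a : B.Q) (i : ℕ) (y' : B.P i)
    (θ' : Finset B.Q) (j : Fin 3) :
    |lampSign b θ * lampSign b θ' * B.ωQ ((B.π i y')⁻¹ * a) -
      lampSign b θ * lampSign b θ' * B.ωQ ((B.π i (y' * B.x i j))⁻¹ * a)| ≤ 1 / B.ρ := by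
  have h1 : (B.π i (y' * B.x i j))⁻¹ * a = (B.xQ j)⁻¹ * ((B.π i y')⁻¹ * a) := by
    rw [map_mul, B.π_x]; group
  rw [h1, ← mul_sub, abs_mul, abs_mul, abs_lampSign, abs_lampSign, one_mul, one_mul,
    abs_sub_comm]
  exact B.lipQ j _

theorem lamp_toggle {b : B.Q} {a : B.Q} (hfar : B.ωQ (b⁻¹ * a) = 0) (θ : Finset B.Q)
    (i : ℕ) (y' : B.P i) (θ' : Finset B.Q) :
    lampSign b θ * lampSign b θ' * B.ωQ ((B.π i y')⁻¹ * a) -
      lampSign b θ * lampSign b (symmDiff θ' {B.π i y'}) * B.ωQ ((B.π i y')⁻¹ * a) = 0 := by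
  rcases eq_or_ne (B.π i y') b with h | h
  · rw [h, hfar]; ring
  · rw [lampSign_symmDiff_of_ne h]; ring

theorem badm_lampFn (hK : 0 ≤ K) (h0r : 0 ≤ r) {b : B.Q} {a : B.Q}
    (hfar : B.ωQ (b⁻¹ * a) = 0) (θ : Finset B.Q) :
    BAdm B K r (B.ρ • B.lampFn b θ a) := by
  have hρ := B.ρ_pos
  refine ⟨?_, ?_⟩
  · intro z
    rw [Pi.smul_apply, smul_eq_mul, abs_mul, abs_of_nonneg hρ.le]
    refine mul_le_of_le_one_right hρ.le ?_
    cases z with
    | tip a θ => exact B.abs_ss_le _ _ _ _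
    | sheet i y θ => exact B.abs_ss_le _ _ _ _
  · intro u v w h
    rw [Pi.smul_apply, Pi.smul_apply, smul_eq_mul, smul_eq_mul, ← mul_sub, abs_mul,
      abs_of_nonneg hρ.le]
    cases h with
    | move i y' θ' j =>
      calc _ ≤ B.ρ * (1 / B.ρ) :=
            mul_le_mul_of_nonneg_left (B.lamp_move b θ a i y' θ' j) hρ.le
        _ = 1 := by field_simp
    | toggle i y' θ' h =>
      have := B.lamp_toggle hfar θ i y' θ'
      change B.ρ * |lampSign b θ * lampSign b θ' * B.ωQ ((B.π i y')⁻¹ * a) -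
        lampSign b θ * lampSign b (symmDiff θ' {B.π i y'}) * B.ωQ ((B.π i y')⁻¹ * a)| ≤ K
      rw [this, abs_zero, mul_zero]; exact hK
    | arm i y' θ' =>
      change B.ρ * |lampSign b θ * lampSign b θ' * B.ωQ ((B.π i y')⁻¹ * a) -
        lampSign b θ * lampSign b θ' * B.ωQ ((B.π i y')⁻¹ * a)| ≤ r
      rw [sub_self, abs_zero, mul_zero]; exact h0r

theorem badm_lampFar (hK : 0 ≤ K) (h0r : 0 ≤ r) (hr : r ≤ B.ρ) (m : ℕ) {b : B.Q} {a : B.Q}
    (hfar : B.ωQ (b⁻¹ * a) = 0) (θ : Finset B.Q) :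
    BAdm B K r (r • B.lampFar m b θ a) := by
  have hρ := B.ρ_pos
  have hbd : ∀ z, |(r • B.lampFar m b θ a) z| ≤ r := by
    intro z
    rw [Pi.smul_apply, smul_eq_mul, abs_mul, abs_of_nonneg h0r]
    refine mul_le_of_le_one_right h0r ?_
    cases z with
    | tip a θ => simp [lampFar]
    | sheet i y θ =>
      simp only [lampFar]
      split_ifs
      · exact B.abs_ss_le _ _ _ _
      · simp
  refine ⟨fun z => (hbd z).trans hr, ?_⟩
  intro u v w h
  cases h with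
  | move i y' θ' j =>
    rw [Pi.smul_apply, Pi.smul_apply, smul_eq_mul, smul_eq_mul, ← mul_sub, abs_mul,
      abs_of_nonneg h0r]
    simp only [lampFar]
    split_ifs
    · calc _ ≤ r * (1 / B.ρ) :=
            mul_le_mul_of_nonneg_left (B.lamp_move b θ a i y' θ' j) h0r
        _ ≤ 1 := by rw [mul_one_div, div_le_one hρ]; exact hr
    · simp
  | toggle i y' θ' h =>
    rw [Pi.smul_apply, Pi.smul_apply, smul_eq_mul, smul_eq_mul, ← mul_sub]
    simp only [lampFar]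
    split_ifs
    · rw [B.lamp_toggle hfar θ i y' θ', mul_zero, abs_zero]; exact hK
    · simpa using hK
  | arm i y' θ' =>
    have h0 : (r • B.lampFar m b θ a) (.tip (B.π i y') θ') = 0 := by simp [lampFar]
    rw [h0, sub_zero]
    exact hbd _

/-- decomposition of the signed lamp function -/
theorem lampFn_eq {m : ℕ} (y : B.P m) (b : B.Q) (θ : Finset B.Q) :
    B.lampFn b θ (B.π m y) =
      B.comb (fun l => lampSign b θ * lampSign b l.2.1) y +
      B.tips (fun t => lampSign b θ * lampSign b t.2 * B.ωQ (t.1⁻¹ * B.π m y)) +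
      B.lampFar m b θ (B.π m y) := by
  funext z
  rw [Pi.add_apply, Pi.add_apply]
  match z with
  | .tip a θ' => rw [comb_tip]; simp [lampFn, tips, lampFar]
  | .sheet i y' θ' =>
    rcases lt_or_ge i m with hi | hi
    · rw [comb_sheet _ _ _ hi]
      dsimp only
      rw [← mul_sum, sum_ker B hi y y' (B.ω i), B.fib]
      have : ¬ m ≤ i := not_le.2 hi
      simp [lampFn, tips, lampFar, this]
    · rw [comb_sheet_ge _ _ _ hi]
      simp [lampFn, tips, lampFar, hi]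

/-- coefficients of the frozen-lamp test function -/
noncomputable def frozenCoef {m : ℕ} (y : B.P m) (θ : Finset B.Q) (l : B.Lab m) : ℝ :=
  if l.2.2.1 * B.ψ m l.1 l.1.2 y ∉ B.Y l.1 then
    lampSign (B.π m y) θ * lampSign (B.π m y) l.2.1 else 0

theorem abs_frozenCoef_le {m : ℕ} (y : B.P m) (θ : Finset B.Q) (l : B.Lab m) :
    |B.frozenCoef y θ l| ≤ 1 := by
  unfold frozenCoef
  split_ifs
  · rw [abs_zero]; exact zero_le_one
  · rw [abs_mul, abs_lampSign, abs_lampSign, one_mul]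

theorem ω_eq_zero {i : ℕ} {g : B.P i} (h1 : B.π i g = 1) (hne : g ≠ 1) : B.ω i g = 0 := by
  have h2 := B.fib i 1
  rw [B.ωQ_one] at h2
  have hmem : (1 : B.P i) ∈ univ.filter (fun g => B.π i g = 1) := by simp
  rw [← Finset.add_sum_erase _ _ hmem, B.ω_one] at h2
  have h3 : ∑ g ∈ (univ.filter (fun g => B.π i g = 1)).erase 1, B.ω i g = 0 := by linarith
  rw [Finset.sum_eq_zero_iff_of_nonneg (fun g _ => B.ω_nonneg i g)] at h3
  exact h3 g (by simp [h1, hne])

theorem frozen_toggle {m : ℕ} (y : B.P m) (θ : Finset B.Q) (i : ℕ) (y' : B.P i)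
    (θ' : Finset B.Q) (hy' : y' ∈ B.Y i) :
    B.comb (B.frozenCoef y θ) y (.sheet i y' θ') =
      B.comb (B.frozenCoef y θ) y (.sheet i y' (symmDiff θ' {B.π i y'})) := by
  rcases lt_or_ge i m with hi | hi
  · rw [comb_sheet _ _ _ hi, comb_sheet _ _ _ hi]
    refine sum_congr rfl fun δ _ => ?_
    rcases eq_or_ne (B.π i y') (B.π m y) with h | h
    · rcases eq_or_ne (y'⁻¹ * (δ.1 * B.ψ m i hi y)) 1 with h1 | h1
      · have h2 : δ.1 * B.ψ m i hi y = y' := (inv_mul_eq_one.1 h1).symm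
        have h3 : ∀ θ'', B.frozenCoef y θ ⟨⟨i, hi⟩, θ'', δ⟩ = 0 := by
          intro θ''
          unfold frozenCoef
          rw [if_neg]
          simp only [h2, not_not]
          exact hy'
        rw [h3, h3]
      · rw [B.ω_eq_zero _ h1, mul_zero, mul_zero]
        rw [map_mul, map_mul, map_inv, B.π_ψ, δ.2, one_mul, h, inv_mul_cancel]
    · congr 1
      unfold frozenCoef
      simp only
      rw [lampSign_symmDiff_of_ne h]
  · rw [comb_sheet_ge _ _ _ hi, comb_sheet_ge _ _ _ hi]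

theorem badm_frozen (hK : 0 ≤ K) (h0r : 0 ≤ r) (hr : r ≤ B.ρ) {m : ℕ} (y : B.P m)
    (θ : Finset B.Q) : BAdm B K r (r • B.comb (B.frozenCoef y θ) y) := by
  have hρ := B.ρ_pos
  have hbd : ∀ z, |(r • B.comb (B.frozenCoef y θ) y) z| ≤ r := by
    intro z
    rw [Pi.smul_apply, smul_eq_mul, abs_mul, abs_of_nonneg h0r]
    exact mul_le_of_le_one_right h0r (B.abs_comb_le _ (B.abs_frozenCoef_le y θ) y z)
  refine ⟨fun z => (hbd z).trans hr, ?_⟩
  intro u v w h
  cases h with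
  | move i y' θ' j =>
    rw [Pi.smul_apply, Pi.smul_apply, smul_eq_mul, smul_eq_mul, ← mul_sub, abs_mul,
      abs_of_nonneg h0r]
    calc _ ≤ r * (1 / B.ρ) :=
          mul_le_mul_of_nonneg_left
            (B.abs_comb_move_le _ (B.abs_frozenCoef_le y θ) y i y' θ' j) h0r
      _ ≤ 1 := by rw [mul_one_div, div_le_one hρ]; exact hr
  | toggle i y' θ' h =>
    rw [Pi.smul_apply, Pi.smul_apply, B.frozen_toggle y θ i y' θ' h, sub_self, abs_zero]
    exact hK
  | arm i y' θ' =>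
    have h0 : (r • B.comb (B.frozenCoef y θ) y) (.tip (B.π i y') θ') = 0 := by
      rw [Pi.smul_apply, comb_tip, smul_zero]
    rw [h0, sub_zero]
    exact hbd _

end Block

end Vale.Agent.P090
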