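import Mathlib

/-!
P090: Lipschitz-free spaces and the bounded approximation property.
-/

namespace Vale.Agent.P090

/-- `Lip0 M o` is the space of Lipschitz functions `M → ℝ` that vanish at `o`. -/
@[ext]
structure Lip0 (M : Type*) [MetricSpace M] (o : M) where
  toFun : M → ℝ
  map_base : toFun o = 0
  lipschitz : ∃ K : ℝ, ∀ x y, |toFun x - toFun y| ≤ K * dist x y

section

variable {M : Type*} [MetricSpace M] {o : M}

instance : Zero (Lip0 M o) := ⟨⟨fun _ => 0, rfl, 0, by simp⟩⟩

noncomputable instance : Add (Lip0 M o) :=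
  ⟨fun f g => ⟨fun x => f.toFun x + g.toFun x, by rw [f.map_base, g.map_base, add_zero], by
    obtain ⟨K, hK⟩ := f.lipschitz
    obtain ⟨L, hL⟩ := g.lipschitz
    refine ⟨K + L, fun x y => ?_⟩
    rw [add_mul, add_sub_add_comm]
    exact (abs_add_le _ _).trans (add_le_add (hK x y) (hL x y))⟩⟩

noncomputable instance : SMul ℝ (Lip0 M o) :=
  ⟨fun c f => ⟨fun x => c * f.toFun x, by rw [f.map_base, mul_zero], by
    obtain ⟨K, hK⟩ := f.lipschitz
    refine ⟨|c| * K, fun x y => ?_⟩
    rw [← mul_sub, abs_mul, mul_assoc]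
    exact mul_le_mul_of_nonneg_left (hK x y) (abs_nonneg c)⟩⟩

noncomputable instance : Neg (Lip0 M o) := ⟨fun f => (-1 : ℝ) • f⟩

noncomputable instance : AddCommGroup (Lip0 M o) where
  add_assoc _ _ _ := Lip0.ext (funext fun _ => add_assoc _ _ _)
  zero_add _ := Lip0.ext (funext fun _ => zero_add _)
  add_zero _ := Lip0.ext (funext fun _ => add_zero _)
  nsmul := nsmulRec
  zsmul := zsmulRec
  neg_add_cancel f := Lip0.ext (funext fun x => by
    change -1 * f.toFun x + f.toFun x = 0
    ring)
  add_comm _ _ := Lip0.ext (funext fun _ => add_comm _ _)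

noncomputable instance : Module ℝ (Lip0 M o) where
  one_smul _ := Lip0.ext (funext fun _ => one_mul _)
  mul_smul _ _ _ := Lip0.ext (funext fun _ => mul_assoc _ _ _)
  smul_zero _ := Lip0.ext (funext fun _ => mul_zero _)
  smul_add _ _ _ := Lip0.ext (funext fun _ => mul_add _ _ _)
  add_smul _ _ _ := Lip0.ext (funext fun _ => add_mul _ _ _)
  zero_smul _ := Lip0.ext (funext fun _ => zero_mul _)

/-- The norm of `f` is its least Lipschitz constant. -/
noncomputable instance : Norm (Lip0 M o) :=
  ⟨fun f => sInf {K : ℝ | 0 ≤ K ∧ ∀ x y, |f.toFun x - f.toFun y| ≤ K * dist x y}⟩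

theorem lipConsts_nonempty (f : Lip0 M o) :
    {K : ℝ | 0 ≤ K ∧ ∀ x y, |f.toFun x - f.toFun y| ≤ K * dist x y}.Nonempty := by
  obtain ⟨K, hK⟩ := f.lipschitz
  exact ⟨|K|, abs_nonneg K, fun x y =>
    (hK x y).trans (mul_le_mul_of_nonneg_right (le_abs_self K) dist_nonneg)⟩

theorem norm_le_of {f : Lip0 M o} {K : ℝ} (h0 : 0 ≤ K)
    (h : ∀ x y, |f.toFun x - f.toFun y| ≤ K * dist x y) : ‖f‖ ≤ K :=
  csInf_le ⟨0, fun _ h => h.1⟩ ⟨h0, h⟩

theorem norm_nonneg' (f : Lip0 M o) : 0 ≤ ‖f‖ :=
  le_csInf (lipConsts_nonempty f) fun _ h => h.1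

theorem abs_sub_le (f : Lip0 M o) (x y : M) :
    |f.toFun x - f.toFun y| ≤ ‖f‖ * dist x y := by
  rcases eq_or_lt_of_le (dist_nonneg (x := x) (y := y)) with h | h
  · have : x = y := dist_eq_zero.1 h.symm
    simp [this]
  · rw [← div_le_iff₀ h]
    exact le_csInf (lipConsts_nonempty f) fun K hK => (div_le_iff₀ h).2 (hK.2 x y)

theorem norm_smul_le' (c : ℝ) (f : Lip0 M o) : ‖c • f‖ ≤ ‖c‖ * ‖f‖ := by
  refine norm_le_of (mul_nonneg (norm_nonneg _) (norm_nonneg' f)) fun x y => ?_
  change |c * f.toFun x - c * f.toFun y| ≤ _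
  rw [← mul_sub, abs_mul, Real.norm_eq_abs, mul_assoc]
  exact mul_le_mul_of_nonneg_left (abs_sub_le f x y) (abs_nonneg c)

theorem lip0_core : NormedSpace.Core ℝ (Lip0 M o) where
  norm_nonneg := norm_nonneg'
  norm_smul c f := by
    refine le_antisymm (norm_smul_le' c f) ?_
    rcases eq_or_ne c 0 with rfl | hc
    · rw [norm_zero, zero_mul]; exact norm_nonneg' _
    · have h := norm_smul_le' c⁻¹ (c • f)
      rw [inv_smul_smul₀ hc, norm_inv] at h
      rwa [inv_mul_eq_div, le_div_iff₀ (norm_pos_iff.2 hc), mul_comm] at h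
  norm_triangle f g := by
    refine norm_le_of (add_nonneg (norm_nonneg' f) (norm_nonneg' g)) fun x y => ?_
    change |(f.toFun x + g.toFun x) - (f.toFun y + g.toFun y)| ≤ _
    rw [add_mul, add_sub_add_comm]
    exact (abs_add_le _ _).trans (add_le_add (abs_sub_le f x y) (abs_sub_le g x y))
  norm_eq_zero_iff f := by
    constructor
    · intro h
      refine Lip0.ext (funext fun x => ?_)
      have h1 := abs_sub_le f x o
      rw [h, zero_mul, f.map_base, sub_zero] at h1
      exact abs_nonpos_iff.1 h1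
    · rintro rfl
      refine le_antisymm (norm_le_of le_rfl fun x y => ?_) (norm_nonneg' _)
      change |(0 : ℝ) - 0| ≤ _
      simp

noncomputable instance : NormedAddCommGroup (Lip0 M o) := NormedAddCommGroup.ofCore lip0_core

noncomputable instance : NormedSpace ℝ (Lip0 M o) := NormedSpace.ofCore lip0_core

end

/-- The dual Banach space of `Lip0 M o`, with the operator norm. -/
def Lip0Dual (M : Type*) [MetricSpace M] (o : M) : Type _ := StrongDual ℝ (Lip0 M o)

noncomputable instance {M : Type*} [MetricSpace M] {o : M} :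
    NormedAddCommGroup (Lip0Dual M o) :=
  (ContinuousLinearMap.toNormedAddCommGroup : NormedAddCommGroup (StrongDual ℝ (Lip0 M o)))

noncomputable instance {M : Type*} [MetricSpace M] {o : M} : NormedSpace ℝ (Lip0Dual M o) :=
  (ContinuousLinearMap.toNormedSpace : NormedSpace ℝ (StrongDual ℝ (Lip0 M o)))

/-- Evaluation at `x`, as a bounded linear functional on `Lip0 M o`. -/
noncomputable def evalAt {M : Type*} [MetricSpace M] (o x : M) : Lip0Dual M o :=
  LinearMap.mkContinuous
    { toFun := fun f : Lip0 M o => f.toFun x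
      map_add' := fun _ _ => rfl
      map_smul' := fun _ _ => rfl } (dist x o)
    (fun f => by
      have h := abs_sub_le f x o
      rw [f.map_base, sub_zero, mul_comm] at h
      exact h)

/-- The norm closure of the linear span of the evaluations in the dual of `Lip0 M o`. -/
noncomputable def freeSubspace (M : Type*) [MetricSpace M] (o : M) :
    Submodule ℝ (Lip0Dual M o) :=
  (Submodule.span ℝ (Set.range (evalAt o))).topologicalClosure

/-- The Lipschitz-free space `F(M)`: the closed linear span of the evaluations in the dual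
of `Lip0 M o`, with the norm of the dual. -/
def LipFree (M : Type*) [MetricSpace M] (o : M) : Type _ := freeSubspace M o

noncomputable instance {M : Type*} [MetricSpace M] {o : M} :
    NormedAddCommGroup (LipFree M o) := (freeSubspace M o).normedAddCommGroup

noncomputable instance {M : Type*} [MetricSpace M] {o : M} : NormedSpace ℝ (LipFree M o) :=
  (freeSubspace M o).normedSpace

/-- `X` has the `lam`-bounded approximation property: for every compact `C` and every
`ε > 0` some finite-rank bounded operator of norm at most `lam` moves every point of `C`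
by less than `ε`. -/
def HasLambdaBAP (X : Type*) [NormedAddCommGroup X] [NormedSpace ℝ X] (lam : ℝ) : Prop :=
  ∀ C : Set X, IsCompact C → ∀ ε : ℝ, 0 < ε → ∃ T : X →L[ℝ] X,
    FiniteDimensional ℝ (LinearMap.range (T : X →ₗ[ℝ] X)) ∧ ‖T‖ ≤ lam ∧
      ∀ u ∈ C, ‖T u - u‖ < ε

/-- The bounded approximation property. -/
def HasBAP (X : Type*) [NormedAddCommGroup X] [NormedSpace ℝ X] : Prop :=
  ∃ lam : ℝ, 1 ≤ lam ∧ HasLambdaBAP X lam

/-- The distances between distinct points are bounded below by a positive number. -/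
def UniformlyDiscrete (M : Type*) [MetricSpace M] : Prop :=
  ∃ c : ℝ, 0 < c ∧ ∀ x y : M, x ≠ y → c ≤ dist x y

end Vale.Agent.P090
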