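import Mathlib

/-!
P090: an elementary spectral gap for finite groups generated by three elements of order five
such that each pairwise commutator commutes with both of its entries.
-/

namespace Vale.Agent.P090.GapAux

open Finset

section Alg

variable {A : Type*} [Ring A] [Algebra ℝ A]

/-- average of the powers of an element of order five -/
noncomputable def av (W : A) : A := (1 / 5 : ℝ) • ∑ k ∈ range 5, W ^ k

theorem mul_av {W : A} (h : W ^ 5 = 1) : W * av W = av W := by
  unfold av
  rw [mul_smul_comm, Finset.mul_sum]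
  congr 1
  simp only [← pow_succ']
  simp only [Finset.sum_range_succ, Finset.sum_range_zero, zero_add, h, pow_zero]
  abel

theorem pow_mul_av {W : A} (h : W ^ 5 = 1) (k : ℕ) : W ^ k * av W = av W := by
  induction k with
  | zero => rw [pow_zero, one_mul]
  | succ k ih => rw [pow_succ', mul_assoc, ih, mul_av h]

theorem av_mul_av {W : A} (h : W ^ 5 = 1) : av W * av W = av W := by
  have h1 : av W * av W = (1 / 5 : ℝ) • ∑ k ∈ range 5, W ^ k * av W := by
    conv_lhs => rw [av, smul_mul_assoc, Finset.sum_mul]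
    rfl
  rw [h1]
  simp only [pow_mul_av h, Finset.sum_const, Finset.card_range]
  rw [← Nat.cast_smul_eq_nsmul ℝ, smul_smul]
  norm_num

theorem commute_av {W U : A} (h : Commute W U) : Commute (av W) U := by
  unfold av
  apply Commute.smul_left
  exact Commute.sum_left _ _ _ (fun k _ => h.pow_left k)

theorem commute_av_av {W U : A} (h : Commute W U) : Commute (av W) (av U) :=
  (commute_av (commute_av h).symm).symm

variable {X Y Z : A} (hZ : Z ^ 5 = 1) (hX : X ^ 5 = 1) (hZX : Commute Z X) (hZY : Commute Z Y)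
  (hXY : X * Y = Z * Y * X)

omit [Algebra ℝ A] in
include hZY hXY in
theorem rel1 (k : ℕ) : X * Y ^ k = Z ^ k * Y ^ k * X := by
  induction k with
  | zero => simp
  | succ k ih =>
    have h1 : Y ^ k * Z = Z * Y ^ k := (hZY.symm.pow_left k)
    calc X * Y ^ (k + 1) = (X * Y ^ k) * Y := by rw [pow_succ, mul_assoc]
      _ = Z ^ k * Y ^ k * (X * Y) := by rw [ih, mul_assoc]
      _ = Z ^ k * Y ^ k * (Z * Y * X) := by rw [hXY]
      _ = Z ^ k * (Y ^ k * Z) * (Y * X) := by simp only [mul_assoc]
      _ = Z ^ k * (Z * Y ^ k) * (Y * X) := by rw [h1]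
      _ = Z ^ (k + 1) * Y ^ (k + 1) * X := by rw [pow_succ, pow_succ]; simp only [mul_assoc]

omit [Algebra ℝ A] in
include hZX hZY hXY in
theorem rel2 (l k : ℕ) : X ^ l * Y ^ k = Z ^ (l * k) * (Y ^ k * X ^ l) := by
  induction l with
  | zero => simp
  | succ l ih =>
    have h1 : X * Z ^ (l * k) = Z ^ (l * k) * X := (hZX.symm.pow_right (l * k))
    calc X ^ (l + 1) * Y ^ k = X * (X ^ l * Y ^ k) := by rw [pow_succ', mul_assoc]
      _ = (X * Z ^ (l * k)) * (Y ^ k * X ^ l) := by rw [ih, mul_assoc]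
      _ = Z ^ (l * k) * (X * Y ^ k) * X ^ l := by rw [h1]; simp only [mul_assoc]
      _ = Z ^ (l * k) * (Z ^ k * Y ^ k * X) * X ^ l := by rw [rel1 hZY hXY k]
      _ = Z ^ ((l + 1) * k) * (Y ^ k * X ^ (l + 1)) := by
          rw [add_mul, one_mul, pow_add, pow_succ']
          simp only [mul_assoc]

include hZ hZX hZY hXY in
theorem av_comm_C : av X * av Y * av Z = av Y * av X * av Z := by
  have h1 : ∀ l k : ℕ, X ^ l * Y ^ k * av Z = Y ^ k * X ^ l * av Z := by
    intro l k
    have h2 : Commute (Z ^ (l * k)) (Y ^ k * X ^ l) :=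
      ((hZY.pow_left _).pow_right k).mul_right ((hZX.pow_left _).pow_right l)
    rw [rel2 hZX hZY hXY, h2.eq, mul_assoc, pow_mul_av hZ]
  have h3 : av X * av Y * av Z = (1 / 5 : ℝ) • (1 / 5 : ℝ) •
      ∑ l ∈ range 5, ∑ k ∈ range 5, X ^ l * Y ^ k * av Z := by
    conv_lhs => rw [av, av]
    simp only [smul_mul_assoc, mul_smul_comm, Finset.sum_mul, Finset.mul_sum]
    rw [← Finset.smul_sum, Finset.sum_comm]
  have h4 : av Y * av X * av Z = (1 / 5 : ℝ) • (1 / 5 : ℝ) •
      ∑ l ∈ range 5, ∑ k ∈ range 5, Y ^ k * X ^ l * av Z := by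
    conv_lhs => rw [av, av]
    simp only [smul_mul_assoc, mul_smul_comm, Finset.sum_mul, Finset.mul_sum]
    rw [← Finset.smul_sum]
  rw [h3, h4]
  simp only [h1]

include hZ in
theorem av_pow (k : ℕ) (hk : k ∈ ({1, 2, 3, 4} : Finset ℕ)) :
    (1 / 5 : ℝ) • ∑ l ∈ range 5, Z ^ (l * k) = av Z := by
  unfold av
  congr 1
  have h1 : ∀ n : ℕ, Z ^ n = Z ^ (n % 5) := fun n => pow_eq_pow_mod n hZ
  simp only [Finset.mem_insert, Finset.mem_singleton] at hk
  rcases hk with rfl | rfl | rfl | rfl
  · simp only [Finset.sum_range_succ, Finset.sum_range_zero, mul_one]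
  · simp only [Finset.sum_range_succ, Finset.sum_range_zero]
    rw [h1 (3 * 2), h1 (4 * 2)]
    norm_num
    abel
  · simp only [Finset.sum_range_succ, Finset.sum_range_zero]
    rw [h1 (2 * 3), h1 (3 * 3), h1 (4 * 3)]
    norm_num
    abel
  · simp only [Finset.sum_range_succ, Finset.sum_range_zero]
    rw [h1 (2 * 4), h1 (3 * 4), h1 (4 * 4)]
    norm_num
    abel

include hX hZ hZX hZY hXY in
theorem av_pow_av (k : ℕ) (hk : k ∈ ({1, 2, 3, 4} : Finset ℕ)) :
    av X * Y ^ k * av X = Y ^ k * (av Z * av X) := by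
  have h1 : av X * Y ^ k * av X = (1 / 5 : ℝ) • ∑ l ∈ range 5, X ^ l * Y ^ k * av X := by
    conv_lhs => rw [av]
    simp only [smul_mul_assoc, Finset.sum_mul]
    rfl
  have h2 : ∀ l, X ^ l * Y ^ k * av X = Z ^ (l * k) * (Y ^ k * av X) := by
    intro l
    rw [rel2 hZX hZY hXY, mul_assoc, mul_assoc, pow_mul_av hX]
  rw [h1]
  simp only [h2]
  rw [← Finset.sum_mul, ← smul_mul_assoc, av_pow hZ k hk, ← mul_assoc,
    ((commute_av hZY).pow_right k).eq, mul_assoc]

include hX hZ hZX hZY hXY in
theorem av_av_av : av X * av Y * av X * (1 - av Z) = (1 / 5 : ℝ) • (av X * (1 - av Z)) := by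
  have hCC := av_mul_av hZ
  have h0 : av Z * av X * (1 - av Z) = 0 := by
    rw [(commute_av_av hZX).eq, mul_assoc, mul_sub, mul_one, hCC, sub_self, mul_zero]
  have h1 : av X * av Y * av X * (1 - av Z)
      = (1 / 5 : ℝ) • ∑ k ∈ range 5, av X * Y ^ k * av X * (1 - av Z) := by
    conv_lhs => rw [show av Y = (1 / 5 : ℝ) • ∑ k ∈ range 5, Y ^ k from rfl]
    simp only [smul_mul_assoc, mul_smul_comm, Finset.sum_mul, Finset.mul_sum]
  rw [h1]
  congr 1
  rw [Finset.sum_range_succ']
  have h2 : ∑ k ∈ range 4, av X * Y ^ (k + 1) * av X * (1 - av Z) = 0 := by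
    apply Finset.sum_eq_zero
    intro k hk
    rw [av_pow_av hZ hX hZX hZY hXY (k + 1) (by
      rw [Finset.mem_range] at hk
      interval_cases k <;> simp), mul_assoc, h0, mul_zero]
  rw [h2, zero_add, pow_zero, mul_one, av_mul_av hX]

end Alg

section Hilbert

variable {V : Type*} [NormedAddCommGroup V] [InnerProductSpace ℝ V]

/-- two orthogonal projections whose commutation is controlled by a third one -/
theorem two_proj (P Q C : V →ₗ[ℝ] V) (hP : P.IsSymmetric) (hQ : Q.IsSymmetric)
    (hC : C.IsSymmetric) (hPP : P * P = P) (hQQ : Q * Q = Q) (hCC : C * C = C)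
    (hPC : Commute P C) (hQC : Commute Q C) (h3 : P * Q * C = Q * P * C)
    (h4 : P * Q * P * (1 - C) = (1 / 5 : ℝ) • (P * (1 - C))) (u : V) :
    -(1 / Real.sqrt 5) * (inner ℝ (u - P u) (u - P u) + inner ℝ (u - Q u) (u - Q u))
      ≤ 2 * inner ℝ (u - P u) (u - Q u) := by
  have pp : ∀ x, P (P x) = P x := fun x => LinearMap.congr_fun hPP x
  have qq : ∀ x, Q (Q x) = Q x := fun x => LinearMap.congr_fun hQQ x
  have cc : ∀ x, C (C x) = C x := fun x => LinearMap.congr_fun hCC x
  have pc : ∀ x, P (C x) = C (P x) := fun x => LinearMap.congr_fun hPC.eq x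
  have qc : ∀ x, Q (C x) = C (Q x) := fun x => LinearMap.congr_fun hQC.eq x
  set ε : ℝ := 1 / Real.sqrt 5 with hε
  have hε2 : ε ^ 2 = 1 / 5 := by
    rw [hε, div_pow, one_pow, Real.sq_sqrt (by norm_num)]
  have hε0 : 0 < ε := by positivity
  have hε1 : ε < 1 := by nlinarith
  set a := C u with ha
  set b := u - C u with hb
  have hCa : C a = a := cc u
  have hCb : C b = 0 := by rw [hb, map_sub, cc, sub_self]
  have hu : u = a + b := by rw [ha, hb]; abel
  -- orthogonality of the two parts
  have orth : ∀ x y, C x = x → C y = 0 → inner ℝ x y = 0 := by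
    intro x y hx hy
    rw [← hx, hC, hy, inner_zero_right]
  have orth' : ∀ x y, C x = x → C y = 0 → inner ℝ y x = 0 := by
    intro x y hx hy
    rw [real_inner_comm]
    exact orth x y hx hy
  have hpa : C (a - P a) = a - P a := by rw [map_sub, ← pc, hCa]
  have hqa : C (a - Q a) = a - Q a := by rw [map_sub, ← qc, hCa]
  have hpb : C (b - P b) = 0 := by rw [map_sub, ← pc, hCb, map_zero, sub_zero]
  have hqb : C (b - Q b) = 0 := by rw [map_sub, ← qc, hCb, map_zero, sub_zero]
  have eP : u - P u = (a - P a) + (b - P b) := by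
    conv_lhs => rw [hu]
    rw [map_add]
    abel
  have eQ : u - Q u = (a - Q a) + (b - Q b) := by
    conv_lhs => rw [hu]
    rw [map_add]
    abel
  have s1 : inner ℝ (u - P u) (u - P u)
      = inner ℝ (a - P a) (a - P a) + inner ℝ (b - P b) (b - P b) := by
    rw [eP, inner_add_left, inner_add_right, inner_add_right, orth _ _ hpa hpb,
      orth' _ _ hpa hpb]
    ring
  have s2 : inner ℝ (u - Q u) (u - Q u)
      = inner ℝ (a - Q a) (a - Q a) + inner ℝ (b - Q b) (b - Q b) := by
    rw [eQ, inner_add_left, inner_add_right, inner_add_right, orth _ _ hqa hqb,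
      orth' _ _ hqa hqb]
    ring
  have s3 : inner ℝ (u - P u) (u - Q u)
      = inner ℝ (a - P a) (a - Q a) + inner ℝ (b - P b) (b - Q b) := by
    rw [eP, eQ, inner_add_left, inner_add_right, inner_add_right, orth _ _ hpa hqb,
      orth' _ _ hqa hpb]
    ring
  -- the commuting part
  have hA : 0 ≤ inner ℝ (a - P a) (a - Q a) := by
    have hpq : P (Q a) = Q (P a) := by
      have := LinearMap.congr_fun h3 u
      exact this
    have e1 : inner ℝ (a - P a) (a - Q a) = inner ℝ ((a - Q a) - P (a - Q a)) ((a - Q a) -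
        P (a - Q a)) := by
      have t1 : inner ℝ (P a) (P a) = inner ℝ a (P a) := by rw [hP, pp]
      have t2 : inner ℝ (Q a) (Q a) = inner ℝ a (Q a) := by rw [hQ, qq]
      have t3 : inner ℝ (P (Q a)) (P (Q a)) = inner ℝ (Q a) (P a) := by
        rw [hP, pp, hpq, ← hQ, qq]
      have t4 : inner ℝ (Q a) (P (Q a)) = inner ℝ (Q a) (P a) := by
        rw [hpq, ← hQ, qq]
      have t5 : inner ℝ (P a) (P (Q a)) = inner ℝ (P a) (Q a) := by
        rw [← hP, pp]
      have t6 : inner ℝ a (P (Q a)) = inner ℝ (P a) (Q a) := by rw [← hP]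
      have t7 : inner ℝ (P (Q a)) a = inner ℝ (P a) (Q a) := by
        rw [real_inner_comm, t6]
      have t8 : inner ℝ (P (Q a)) (Q a) = inner ℝ (P a) (Q a) := by
        rw [real_inner_comm, t4, real_inner_comm]
      have t9 : inner ℝ (P (Q a)) (P a) = inner ℝ (P a) (Q a) := by
        rw [real_inner_comm, t5]
      have t10 : inner ℝ (Q a) (P a) = inner ℝ (P a) (Q a) := real_inner_comm _ _
      have t11 : inner ℝ (P a) a = inner ℝ a (P a) := real_inner_comm _ _
      have t12 : inner ℝ (Q a) a = inner ℝ a (Q a) := real_inner_comm _ _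
      rw [map_sub]
      simp only [inner_sub_left, inner_sub_right, t1, t2, t3, t4, t5, t6, t7, t8, t9, t10, t11,
        t12]
      ring
    rw [e1]
    exact real_inner_self_nonneg
  -- the noncommuting part
  have hB : -ε * (inner ℝ (b - P b) (b - P b) + inner ℝ (b - Q b) (b - Q b))
      ≤ 2 * inner ℝ (b - P b) (b - Q b) := by
    have hpqp : P (Q (P b)) = (1 / 5 : ℝ) • P b := by
      have := LinearMap.congr_fun h4 u
      exact this
    have t1 : inner ℝ (P b) (P b) = inner ℝ b (P b) := by rw [hP, pp]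
    have t2 : inner ℝ (Q b) (Q b) = inner ℝ b (Q b) := by rw [hQ, qq]
    have t3 : inner ℝ (P b) b = inner ℝ b (P b) := real_inner_comm _ _
    have t4 : inner ℝ (Q b) b = inner ℝ b (Q b) := real_inner_comm _ _
    have t5 : inner ℝ (Q b) (P b) = inner ℝ (P b) (Q b) := real_inner_comm _ _
    set n := inner ℝ b b with hn
    set N1 := inner ℝ b (P b) with hN1
    set N2 := inner ℝ b (Q b) with hN2
    set s := inner ℝ (P b) (Q b) with hs
    have hN1' : 0 ≤ N1 := by rw [← t1]; exact real_inner_self_nonneg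
    have hN2' : 0 ≤ N2 := by rw [← t2]; exact real_inner_self_nonneg
    -- Cauchy-Schwarz
    have hcs : s ^ 2 ≤ 1 / 5 * N1 * N2 := by
      have c1 : s = inner ℝ (Q (P b)) (Q b) := by rw [hQ, qq]
      have c2 : inner ℝ (Q (P b)) (Q (P b)) = 1 / 5 * N1 := by
        rw [hQ, qq]
        have : inner ℝ (P b) (Q (P b)) = inner ℝ (P b) (P (Q (P b))) := by
          rw [← hP, pp]
        rw [this, hpqp, inner_smul_right, t1]
      have c3 := real_inner_mul_inner_self_le (Q (P b)) (Q b)
      rw [← c1, c2, t2] at c3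
      nlinarith
    have hs2 : |s| ≤ ε * (N1 + N2) / 2 := by
      apply abs_le_of_sq_le_sq _ (by positivity)
      nlinarith [sq_nonneg (N1 - N2)]
    have hsq : 0 ≤ inner ℝ ((1 + ε) • b - P b - Q b) ((1 + ε) • b - P b - Q b) :=
      real_inner_self_nonneg
    have e1 : inner ℝ ((1 + ε) • b - P b - Q b) ((1 + ε) • b - P b - Q b)
        = (1 + ε) ^ 2 * n - 2 * (1 + ε) * (N1 + N2) + (N1 + N2) + 2 * s := by
      simp only [inner_sub_left, inner_sub_right, inner_smul_left, inner_smul_right, t1, t2, t3,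
        t4, t5, ← hn, ← hN1, ← hN2, ← hs]
      simp only [conj_trivial]
      ring
    have e2 : inner ℝ (b - P b) (b - P b) = n - N1 := by
      simp only [inner_sub_left, inner_sub_right, t1, t3, ← hn, ← hN1]
      ring
    have e3 : inner ℝ (b - Q b) (b - Q b) = n - N2 := by
      simp only [inner_sub_left, inner_sub_right, t2, t4, ← hn, ← hN2]
      ring
    have e4 : inner ℝ (b - P b) (b - Q b) = n - N1 - N2 + s := by
      simp only [inner_sub_left, inner_sub_right, t3, ← hn, ← hN2, ← hs]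
      ring
    rw [e1] at hsq
    rw [e2, e3, e4]
    have hs3 := (abs_le.1 hs2).2
    have key : 0 ≤ (1 + ε) * (2 * (n - N1 - N2 + s) + ε * (n - N1 + (n - N2))) := by
      have : (1 + ε) * (2 * (n - N1 - N2 + s) + ε * (n - N1 + (n - N2)))
          = 2 * ((1 + ε) ^ 2 * n - 2 * (1 + ε) * (N1 + N2) + (N1 + N2) + 2 * s)
            + (1 - ε) * (ε * (N1 + N2) - 2 * s) := by ring
      rw [this]
      have h6 : 0 ≤ (1 - ε) * (ε * (N1 + N2) - 2 * s) :=
        mul_nonneg (by linarith) (by linarith)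
      linarith
    have key2 := nonneg_of_mul_nonneg_right key (by linarith)
    linarith
  have ha1 : 0 ≤ inner ℝ (a - P a) (a - P a) := real_inner_self_nonneg
  have ha2 : 0 ≤ inner ℝ (a - Q a) (a - Q a) := real_inner_self_nonneg
  rw [s1, s2, s3]
  nlinarith

theorem spectral_gap [FiniteDimensional ℝ V] (T : V →ₗ[ℝ] V) (hT : T.IsSymmetric) (c : ℝ)
    (hc : ∀ u, c * inner ℝ (T u) u ≤ inner ℝ (T u) (T u)) (hpos : ∀ u, 0 ≤ inner ℝ (T u) u)
    (ξ : V) (hξ : ∀ e, T e = 0 → inner ℝ e ξ = 0) :
    c * inner ℝ ξ ξ ≤ inner ℝ (T ξ) ξ := by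
  set b := hT.eigenvectorBasis (rfl : Module.finrank ℝ V = Module.finrank ℝ V) with hb
  set lam := hT.eigenvalues (rfl : Module.finrank ℝ V = Module.finrank ℝ V) with hlam
  have hTb : ∀ i, T (b i) = lam i • b i := by
    intro i
    have := hT.apply_eigenvectorBasis (rfl : Module.finrank ℝ V = Module.finrank ℝ V) i
    simpa only [RCLike.ofReal_real_eq_id, id_eq] using this
  have hbb : ∀ i, inner ℝ (b i) (b i) = (1 : ℝ) := by
    intro i
    rw [real_inner_self_eq_norm_sq, b.orthonormal.1 i]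
    norm_num
  have hl0 : ∀ i, 0 ≤ lam i := by
    intro i
    have := hpos (b i)
    rw [hTb, inner_smul_left, hbb] at this
    simpa using this
  have hl1 : ∀ i, c * lam i ≤ lam i ^ 2 := by
    intro i
    have := hc (b i)
    rw [hTb, inner_smul_left, inner_smul_left, inner_smul_right, hbb] at this
    simp only [conj_trivial, mul_one] at this
    nlinarith
  have e1 : inner ℝ (T ξ) ξ = ∑ i, lam i * (inner ℝ (b i) ξ) ^ 2 := by
    rw [← b.sum_inner_mul_inner (T ξ) ξ]
    apply Finset.sum_congr rfl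
    intro i _
    rw [hT, hTb, inner_smul_right, real_inner_comm]
    ring
  have e2 : inner ℝ ξ ξ = ∑ i, (inner ℝ (b i) ξ) ^ 2 := by
    rw [← b.sum_inner_mul_inner ξ ξ]
    apply Finset.sum_congr rfl
    intro i _
    rw [real_inner_comm]
    ring
  rw [e1, e2, Finset.mul_sum]
  apply Finset.sum_le_sum
  intro i _
  rcases (hl0 i).eq_or_lt with h | h
  · have : inner ℝ (b i) ξ = 0 := hξ (b i) (by rw [hTb, ← h, zero_smul])
    rw [this]
    simp
  · apply mul_le_mul_of_nonneg_right _ (sq_nonneg _)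
    have := hl1 i
    nlinarith

end Hilbert

section Rep

variable {G : Type*} [Group G] [Fintype G]

/-- right translation -/
def rho : G →* Module.End ℝ (EuclideanSpace ℝ G) where
  toFun a :=
    { toFun := fun u => WithLp.toLp 2 (fun g => u (g * a))
      map_add' := fun u v => by ext g; simp
      map_smul' := fun r u => by ext g; simp }
  map_one' := by ext u g; simp
  map_mul' a b := by
    ext u g
    simp [mul_assoc]

omit [Fintype G] in
theorem rho_apply (a : G) (u : EuclideanSpace ℝ G) (g : G) : rho a u g = u (g * a) := rfl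

theorem inner_rho (a : G) (u v : EuclideanSpace ℝ G) :
    inner ℝ (rho a u) v = inner ℝ u (rho a⁻¹ v) := by
  rw [PiLp.inner_apply, PiLp.inner_apply]
  apply Fintype.sum_equiv (Equiv.mulRight a)
  intro g
  simp [rho_apply]

theorem inner_rho_rho (a : G) (u v : EuclideanSpace ℝ G) :
    inner ℝ (rho a u) (rho a v) = inner ℝ u v := by
  rw [inner_rho, ← Module.End.mul_apply, ← map_mul, inv_mul_cancel, map_one]
  rfl

theorem av_apply {V : Type*} [NormedAddCommGroup V] [InnerProductSpace ℝ V] (W : Module.End ℝ V)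
    (u : V) : av W u = (1 / 5 : ℝ) • ∑ k ∈ range 5, (W ^ k) u := by
  unfold av
  rw [LinearMap.smul_apply, LinearMap.sum_apply]

theorem av_symm (a : G) (ha : a ^ 5 = 1) : (av (rho a)).IsSymmetric := by
  intro u v
  have i1 : a⁻¹ = a ^ 4 := by
    rw [inv_eq_iff_mul_eq_one, ← pow_succ', ha]
  have i2 : (a ^ 2)⁻¹ = a ^ 3 := by
    rw [inv_eq_iff_mul_eq_one, ← pow_add, ha]
  have i3 : (a ^ 3)⁻¹ = a ^ 2 := by
    rw [inv_eq_iff_mul_eq_one, ← pow_add, ha]
  have i4 : (a ^ 4)⁻¹ = a := by
    rw [inv_eq_iff_mul_eq_one, ← pow_succ, ha]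
  rw [av_apply, av_apply, inner_smul_left, inner_smul_right, sum_inner, inner_sum]
  simp only [← map_pow, Finset.sum_range_succ, Finset.sum_range_zero, inner_rho, i1, i2, i3, i4,
    pow_one, pow_zero, inv_one]
  simp only [conj_trivial]
  ring

end Rep

end Vale.Agent.P090.GapAux

namespace Vale.Agent.P090

open Finset GapAux

theorem gap {G : Type*} [Group G] [Fintype G] (x : Fin 3 → G)
    (h5 : ∀ j, x j ^ 5 = 1)
    (hc : ∀ i j, Commute (x i * x j * (x i)⁻¹ * (x j)⁻¹) (x i) ∧
      Commute (x i * x j * (x i)⁻¹ * (x j)⁻¹) (x j))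
    (hgen : Subgroup.closure (Set.range x) = ⊤) (f : G → ℝ) :
    ∑ g, (f g - (∑ h, f h) / Fintype.card G) ^ 2 ≤
      10 * ∑ j, ∑ g, (f (g * x j) - f g) ^ 2 := by
  classical
  -- projections
  let E : Fin 3 → Module.End ℝ (EuclideanSpace ℝ G) := fun j => av (rho (x j))
  have hX5 : ∀ j, (rho (x j)) ^ 5 = 1 := fun j => by rw [← map_pow, h5, map_one]
  have hEs : ∀ j, (E j).IsSymmetric := fun j => av_symm (x j) (h5 j)
  have hEE : ∀ j, E j * E j = E j := fun j => av_mul_av (hX5 j)
  have hEE' : ∀ j u, E j (E j u) = E j u := fun j u => LinearMap.congr_fun (hEE j) u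
  -- pair inequality
  have pair : ∀ i j (u : EuclideanSpace ℝ G),
      -(1 / Real.sqrt 5) * (inner ℝ (u - E i u) (u - E i u) + inner ℝ (u - E j u) (u - E j u))
      ≤ 2 * inner ℝ (u - E i u) (u - E j u) := by
    intro i j u
    obtain ⟨hzi, hzj⟩ := hc i j
    set z := x i * x j * (x i)⁻¹ * (x j)⁻¹ with hz
    have hrel : x i * x j = z * x j * x i := by rw [hz]; group
    -- z ^ 5 = 1
    have hz5 : z ^ 5 = 1 := by
      have h1 : ∀ k : ℕ, x i ^ k * x j = z ^ k * (x j * x i ^ k) := by
        intro k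
        induction k with
        | zero => simp
        | succ k ih =>
          have h2 : x i * z ^ k = z ^ k * x i := (hzi.symm.pow_right k)
          calc x i ^ (k + 1) * x j = x i * (x i ^ k * x j) := by rw [pow_succ', mul_assoc]
            _ = (x i * z ^ k) * (x j * x i ^ k) := by rw [ih, mul_assoc]
            _ = z ^ k * (x i * x j) * x i ^ k := by rw [h2]; simp only [mul_assoc]
            _ = z ^ k * (z * x j * x i) * x i ^ k := by rw [hrel]
            _ = z ^ (k + 1) * (x j * x i ^ (k + 1)) := by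
                rw [pow_succ, pow_succ']; simp only [mul_assoc]
      have h2 := h1 5
      rw [h5, one_mul, mul_one] at h2
      exact (mul_eq_right.1 h2.symm)
    have hZ : (rho z) ^ 5 = 1 := by rw [← map_pow, hz5, map_one]
    have hZX : Commute (rho z) (rho (x i)) := hzi.map rho
    have hZY : Commute (rho z) (rho (x j)) := hzj.map rho
    have hXY : rho (x i) * rho (x j) = rho z * rho (x j) * rho (x i) := by
      rw [← map_mul, ← map_mul, ← map_mul, ← hrel]
    exact two_proj (E i) (E j) (av (rho z)) (hEs i) (hEs j) (av_symm z hz5) (hEE i) (hEE j)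
      (av_mul_av hZ) (commute_av_av hZX).symm (commute_av_av hZY).symm
      (av_comm_C hZ hZX hZY hXY) (av_av_av hZ (hX5 i) hZX hZY hXY) u
  -- the Laplacian
  let T : Module.End ℝ (EuclideanSpace ℝ G) := ∑ j, (1 - E j)
  have hTapp : ∀ u, T u = (u - E 0 u) + (u - E 1 u) + (u - E 2 u) := by
    intro u
    simp only [T, Fin.sum_univ_three]
    rfl
  have hD : ∀ j (u v : EuclideanSpace ℝ G), inner ℝ (u - E j u) v
      = inner ℝ (u - E j u) (v - E j v) := by
    intro j u v
    rw [inner_sub_right]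
    have : inner ℝ (u - E j u) (E j v) = 0 := by
      rw [← hEs j, map_sub, hEE', sub_self, inner_zero_left]
    rw [this, sub_zero]
  have hTs : T.IsSymmetric := by
    intro u v
    rw [hTapp, hTapp]
    simp only [inner_add_left, inner_add_right, inner_sub_left, inner_sub_right]
    rw [hEs 0, hEs 1, hEs 2]
  have hTin : ∀ u, inner ℝ (T u) u = inner ℝ (u - E 0 u) (u - E 0 u)
      + inner ℝ (u - E 1 u) (u - E 1 u) + inner ℝ (u - E 2 u) (u - E 2 u) := by
    intro u
    rw [hTapp, inner_add_left, inner_add_left, hD 0 u u, hD 1 u u, hD 2 u u]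
  have hpos : ∀ u, 0 ≤ inner ℝ (T u) u := by
    intro u
    rw [hTin]
    have h0 : 0 ≤ inner ℝ (u - E 0 u) (u - E 0 u) := real_inner_self_nonneg
    have h1 : 0 ≤ inner ℝ (u - E 1 u) (u - E 1 u) := real_inner_self_nonneg
    have h2 : 0 ≤ inner ℝ (u - E 2 u) (u - E 2 u) := real_inner_self_nonneg
    linarith
  have hgap : ∀ u, (1 - 2 * (1 / Real.sqrt 5)) * inner ℝ (T u) u ≤ inner ℝ (T u) (T u) := by
    intro u
    rw [hTin]
    have p01 := pair 0 1 u
    have p02 := pair 0 2 u
    have p12 := pair 1 2 u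
    have e : inner ℝ (T u) (T u) = inner ℝ (u - E 0 u) (u - E 0 u)
        + inner ℝ (u - E 1 u) (u - E 1 u) + inner ℝ (u - E 2 u) (u - E 2 u)
        + 2 * inner ℝ (u - E 0 u) (u - E 1 u) + 2 * inner ℝ (u - E 0 u) (u - E 2 u)
        + 2 * inner ℝ (u - E 1 u) (u - E 2 u) := by
      rw [hTapp]
      rw [inner_add_left, inner_add_left, inner_add_right, inner_add_right, inner_add_right,
        inner_add_right, inner_add_right, inner_add_right,
        real_inner_comm (u - E 0 u) (u - E 1 u), real_inner_comm (u - E 0 u) (u - E 2 u),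
        real_inner_comm (u - E 1 u) (u - E 2 u)]
      ring
    rw [e]
    linarith
  -- the function
  set m : ℝ := (∑ h, f h) / Fintype.card G with hm
  let ξ : EuclideanSpace ℝ G := WithLp.toLp 2 (fun g => f g - m)
  have hξg : ∀ g, ξ g = f g - m := fun g => rfl
  have hcardpos : (0 : ℝ) < Fintype.card G := by exact_mod_cast Fintype.card_pos
  have hξsum : ∑ g, ξ g = 0 := by
    simp only [hξg]
    rw [Finset.sum_sub_distrib, Finset.sum_const, Finset.card_univ, nsmul_eq_mul, hm]
    field_simp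
    ring
  have hker : ∀ e, T e = 0 → inner ℝ e ξ = 0 := by
    intro e he
    have h0 : inner ℝ (T e) e = 0 := by rw [he, inner_zero_left]
    rw [hTin] at h0
    have n0 : 0 ≤ inner ℝ (e - E 0 e) (e - E 0 e) := real_inner_self_nonneg
    have n1 : 0 ≤ inner ℝ (e - E 1 e) (e - E 1 e) := real_inner_self_nonneg
    have n2 : 0 ≤ inner ℝ (e - E 2 e) (e - E 2 e) := real_inner_self_nonneg
    have hz : ∀ j, inner ℝ (e - E j e) (e - E j e) = 0 := by
      intro j
      fin_cases j
      · change inner ℝ (e - E 0 e) (e - E 0 e) = 0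
        linarith
      · change inner ℝ (e - E 1 e) (e - E 1 e) = 0
        linarith
      · change inner ℝ (e - E 2 e) (e - E 2 e) = 0
        linarith
    have hinv : ∀ j, rho (x j) e = e := by
      intro j
      have h1 : e = E j e := by
        have := inner_self_eq_zero.1 (hz j)
        exact sub_eq_zero.1 this
      have h2 : rho (x j) (E j e) = E j e := LinearMap.congr_fun (mul_av (hX5 j)) e
      rw [← h1] at h2
      exact h2
    have hall : ∀ a : G, rho a e = e := by
      intro a
      have ha : a ∈ Subgroup.closure (Set.range x) := by rw [hgen]; trivial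
      induction ha using Subgroup.closure_induction with
      | mem y hy =>
        obtain ⟨j, rfl⟩ := hy
        exact hinv j
      | one => rw [map_one]; rfl
      | mul y z _ _ hy hz =>
        rw [map_mul, Module.End.mul_apply, hz, hy]
      | inv y _ hy =>
        conv_lhs => rw [← hy]
        rw [← Module.End.mul_apply, ← map_mul, inv_mul_cancel, map_one]
        rfl
    have hconst : ∀ g, e g = e 1 := by
      intro g
      have := congrFun (congrArg WithLp.ofLp (hall g)) 1
      change e (1 * g) = e 1 at this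
      rwa [one_mul] at this
    rw [PiLp.inner_apply]
    have : ∀ g, inner ℝ (e g) (ξ g) = e 1 * ξ g := by
      intro g
      rw [hconst g]
      simp [mul_comm]
    simp only [this]
    rw [← Finset.mul_sum, hξsum, mul_zero]
  have hmain := spectral_gap T hTs _ hgap hpos ξ hker
  -- comparison with the differences
  have hcomp : ∀ j (u : EuclideanSpace ℝ G), inner ℝ (u - E j u) (u - E j u)
      ≤ inner ℝ (rho (x j) u - u) (rho (x j) u - u) := by
    intro j u
    have i4 : ((x j) ^ 4)⁻¹ = x j := by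
      rw [inv_eq_iff_mul_eq_one, ← pow_succ, h5]
    have i3 : ((x j) ^ 3)⁻¹ = x j ^ 2 := by
      rw [inv_eq_iff_mul_eq_one, ← pow_add, h5]
    have a4 : inner ℝ u (rho (x j ^ 4) u) = inner ℝ u (rho (x j) u) := by
      rw [real_inner_comm, inner_rho, i4]
    have a3 : inner ℝ u (rho (x j ^ 3) u) = inner ℝ u (rho (x j ^ 2) u) := by
      rw [real_inner_comm, inner_rho, i3]
    have e0 : inner ℝ (u - E j u) (u - E j u) = inner ℝ u u - inner ℝ u (E j u) := by
      rw [← hD, inner_sub_left, real_inner_comm u (E j u)]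
    have e1 : inner ℝ u (E j u) = (1 / 5 : ℝ) * (inner ℝ u u + 2 * inner ℝ u (rho (x j) u)
        + 2 * inner ℝ u (rho (x j ^ 2) u)) := by
      change inner ℝ u (av (rho (x j)) u) = _
      rw [av_apply, inner_smul_right, inner_sum]
      simp only [← map_pow, Finset.sum_range_succ, Finset.sum_range_zero, pow_one, pow_zero,
        map_one, a3, a4]
      change 1 / 5 * (0 + inner ℝ u u + _ + _ + _ + _) = _
      ring
    have e2 : inner ℝ (rho (x j) u - u) (rho (x j) u - u)
        = 2 * inner ℝ u u - 2 * inner ℝ u (rho (x j) u) := by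
      rw [inner_sub_left, inner_sub_right, inner_sub_right, inner_rho_rho,
        real_inner_comm u (rho (x j) u)]
      ring
    have e3 : 0 ≤ inner ℝ (rho (x j ^ 2) u - (2 : ℝ) • rho (x j) u + u)
        (rho (x j ^ 2) u - (2 : ℝ) • rho (x j) u + u) := real_inner_self_nonneg
    have e4 : inner ℝ (rho (x j ^ 2) u - (2 : ℝ) • rho (x j) u + u)
        (rho (x j ^ 2) u - (2 : ℝ) • rho (x j) u + u)
        = 6 * inner ℝ u u - 8 * inner ℝ u (rho (x j) u) + 2 * inner ℝ u (rho (x j ^ 2) u) := by
      have q1 : inner ℝ (rho (x j ^ 2) u) (rho (x j) u) = inner ℝ u (rho (x j) u) := by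
        rw [pow_two, map_mul, Module.End.mul_apply, inner_rho_rho, real_inner_comm]
      have q2 : inner ℝ (rho (x j) u) (rho (x j ^ 2) u) = inner ℝ u (rho (x j) u) := by
        rw [real_inner_comm, q1]
      have q3 : inner ℝ (rho (x j) u) u = inner ℝ u (rho (x j) u) := real_inner_comm _ _
      have q4 : inner ℝ (rho (x j ^ 2) u) u = inner ℝ u (rho (x j ^ 2) u) := real_inner_comm _ _
      simp only [inner_add_left, inner_add_right, inner_sub_left, inner_sub_right,
        inner_smul_left, inner_smul_right, inner_rho_rho, q1, q2, q3, q4]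
      simp only [conj_trivial]
      ring
    rw [e4] at e3
    rw [e0, e1, e2]
    linarith
  -- numerical constant
  have hconst : (1 / 10 : ℝ) ≤ 1 - 2 * (1 / Real.sqrt 5) := by
    have h1 : (2.2360 : ℝ) ≤ Real.sqrt 5 := by
      apply Real.le_sqrt_of_sq_le
      norm_num
    have h2 : 1 / Real.sqrt 5 ≤ 1 / 2.2360 := one_div_le_one_div_of_le (by norm_num) h1
    norm_num at h2 ⊢
    linarith
  have hfin : (1 / 10 : ℝ) * inner ℝ ξ ξ ≤ inner ℝ (rho (x 0) ξ - ξ) (rho (x 0) ξ - ξ)
      + inner ℝ (rho (x 1) ξ - ξ) (rho (x 1) ξ - ξ)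
      + inner ℝ (rho (x 2) ξ - ξ) (rho (x 2) ξ - ξ) := by
    have h1 : (1 / 10 : ℝ) * inner ℝ ξ ξ ≤ (1 - 2 * (1 / Real.sqrt 5)) * inner ℝ ξ ξ :=
      mul_le_mul_of_nonneg_right hconst real_inner_self_nonneg
    have h2 := hTin ξ
    have h3 := hcomp 0 ξ
    have h4 := hcomp 1 ξ
    have h5 := hcomp 2 ξ
    linarith
  have i1 : inner ℝ ξ ξ = ∑ g, (f g - m) ^ 2 := by
    rw [PiLp.inner_apply]
    apply Finset.sum_congr rfl
    intro g _
    simp [hξg, pow_two]
  have i2 : ∀ j, inner ℝ (rho (x j) ξ - ξ) (rho (x j) ξ - ξ) = ∑ g, (f (g * x j) - f g) ^ 2 := by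
    intro j
    rw [PiLp.inner_apply]
    apply Finset.sum_congr rfl
    intro g _
    have : (rho (x j) ξ - ξ) g = f (g * x j) - f g := by
      change ξ (g * x j) - ξ g = _
      rw [hξg, hξg]
      ring
    rw [this]
    simp [pow_two]
  rw [i1, i2, i2, i2] at hfin
  rw [Fin.sum_univ_three]
  linarith

end Vale.Agent.P090
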