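import Vale.Agent.Lib.P090.Tau
import Vale.Agent.Lib.P090.BlockContra

/-!
P090: assembly.
-/

namespace Vale.Agent.P090

open Finset

/-- edges of the disjoint union of all blocks -/
inductive TEdge (Bl : ℕ → Block) (K r : ℕ → ℝ) :
    (Σ n, BPt (Bl n)) → (Σ n, BPt (Bl n)) → ℝ → Prop
  | mk (n : ℕ) (u v : BPt (Bl n)) (w : ℝ) (h : BEdge (Bl n) (K n) (r n) u v w) :
      TEdge Bl K r ⟨n, u⟩ ⟨n, v⟩ w

/-- extension by zero of a function on one block -/
noncomputable def extZ (Bl : ℕ → Block) (n : ℕ) :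
    (BPt (Bl n) → ℝ) →ₗ[ℝ] ((Σ n, BPt (Bl n)) → ℝ) where
  toFun f z := if h : z.1 = n then f (h ▸ z.2) else 0
  map_add' f g := by
    funext z
    simp only [Pi.add_apply]
    split_ifs <;> simp
  map_smul' c f := by
    funext z
    simp only [Pi.smul_apply, RingHom.id_apply]
    split_ifs <;> simp

theorem extZ_same (Bl : ℕ → Block) (n : ℕ) (f : BPt (Bl n) → ℝ) (u : BPt (Bl n)) :
    extZ Bl n f ⟨n, u⟩ = f u := by simp [extZ]

theorem extZ_ne (Bl : ℕ → Block) {n k : ℕ} (h : k ≠ n) (f : BPt (Bl n) → ℝ)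
    (u : BPt (Bl k)) : extZ Bl n f ⟨k, u⟩ = 0 := by simp [extZ, h]

/-- the parameter K of block `n` -/
noncomputable def parK (n : ℕ) : ℝ := 20000000 * ((n : ℝ) + 1) ^ 3

/-- the parameter r of block `n` -/
noncomputable def parR (n : ℕ) : ℝ := 4 * ((n : ℝ) + 1) * parK n

theorem one_le_cast (n : ℕ) : (1 : ℝ) ≤ (n : ℝ) + 1 := by
  have : (0 : ℝ) ≤ n := Nat.cast_nonneg n
  linarith

theorem le_parK (n : ℕ) : 20000000 ≤ parK n := by
  unfold parK
  have h := one_le_pow₀ (one_le_cast n) (n := 3)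
  linarith

theorem parK_ge_L (n : ℕ) : (n : ℝ) + 1 ≤ parK n := by
  unfold parK
  have h1 := one_le_cast n
  have h2 : (n : ℝ) + 1 ≤ ((n : ℝ) + 1) ^ 3 := by
    calc (n : ℝ) + 1 = ((n : ℝ) + 1) ^ 1 := (pow_one _).symm
      _ ≤ _ := pow_le_pow_right₀ h1 (by norm_num)
  nlinarith

theorem parR_ge (n : ℕ) : 4 * parK n ≤ parR n := by
  unfold parR
  have h1 := one_le_cast n
  have h2 := le_parK n
  nlinarith

/-- the numerical conditions of `Block.contradiction`. -/
theorem numbers (L K ρ β : ℝ) (hL : 1 ≤ L) (hK : K = 20000000 * L ^ 3)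
    (hρ : 16 * L * K ^ 2 ≤ ρ) (hβ : β ≤ 1 / (300 * L)) :
    Real.sqrt (480 * (2 / K * (L * (4 * L * K) + 1)) *
        (2 / K * L + 2 / ρ * (L * (4 * L * K) + 1))) ≤ 1 / 25 ∧
    ((L * (4 * L * K) + 1) / ρ + 1 / (4 * L * K)) +
      2 * (Real.sqrt (480 * ((L * (4 * L * K) + 1) / (4 * L * K) + 1) * (L / (4 * L * K))) +
        ((L * (4 * L * K) + 1) / (4 * L * K) + 1) * β +
        Real.sqrt (480 * (2 / K * (L * (4 * L * K) + 1)) *
          (2 / K * L + 2 / ρ * (L * (4 * L * K) + 1)))) ≤ 1 / 2 := by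
  have hL0 : 0 < L := by linarith
  have hL3 : 1 ≤ L ^ 3 := one_le_pow₀ hL
  have hK1 : 20000000 ≤ K := by rw [hK]; linarith
  have hK0 : 0 < K := by linarith
  have hLL3 : L ≤ L ^ 3 := by
    calc L = L ^ 1 := (pow_one _).symm
      _ ≤ _ := pow_le_pow_right₀ hL (by norm_num)
  have hLK : 20000000 * L ≤ K := by rw [hK]; linarith
  have hρ0 : 0 < ρ := lt_of_lt_of_le (by positivity) hρ
  have hLK1 : 1 ≤ L * (4 * L * K) := by nlinarith [mul_pos hL0 hK0]
  have hA0 : 0 < L * (4 * L * K) + 1 := by linarith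
  have hA : L * (4 * L * K) + 1 ≤ 8 * L ^ 2 * K := by nlinarith
  -- first square root
  have h1 : 2 / K * (L * (4 * L * K) + 1) ≤ 16 * L ^ 2 := by
    rw [div_mul_eq_mul_div, div_le_iff₀ hK0]; nlinarith
  have h2a : (L * (4 * L * K) + 1) / ρ ≤ L / (2 * K) := by
    rw [div_le_div_iff₀ hρ0 (by positivity)]
    calc (L * (4 * L * K) + 1) * (2 * K) ≤ (8 * L ^ 2 * K) * (2 * K) :=
          mul_le_mul_of_nonneg_right hA (by positivity)
      _ = L * (16 * L * K ^ 2) := by ring
      _ ≤ L * ρ := mul_le_mul_of_nonneg_left hρ hL0.le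
  have h2 : 2 / ρ * (L * (4 * L * K) + 1) ≤ L / K := by
    calc 2 / ρ * (L * (4 * L * K) + 1) = 2 * ((L * (4 * L * K) + 1) / ρ) := by ring
      _ ≤ 2 * (L / (2 * K)) := by linarith
      _ = L / K := by field_simp
  have h3 : 2 / K * L + 2 / ρ * (L * (4 * L * K) + 1) ≤ 3 * L / K := by
    calc _ ≤ 2 / K * L + L / K := by linarith
      _ = 3 * L / K := by ring
  have h4 : 480 * (2 / K * (L * (4 * L * K) + 1)) *
      (2 / K * L + 2 / ρ * (L * (4 * L * K) + 1)) ≤ (1 / 25) ^ 2 := by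
    calc _ ≤ 480 * (16 * L ^ 2) * (3 * L / K) := by
          apply mul_le_mul _ h3 (by positivity) (by positivity)
          linarith
      _ = 23040 * L ^ 3 / K := by ring
      _ ≤ (1 / 25) ^ 2 := by
          rw [div_le_iff₀ hK0, hK]; nlinarith
  have h5 : Real.sqrt (480 * (2 / K * (L * (4 * L * K) + 1)) *
      (2 / K * L + 2 / ρ * (L * (4 * L * K) + 1))) ≤ 1 / 25 :=
    Real.sqrt_le_iff.2 ⟨by norm_num, h4⟩
  refine ⟨h5, ?_⟩
  -- second square root
  have h6 : (L * (4 * L * K) + 1) / (4 * L * K) + 1 ≤ 3 * L := by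
    have h60 : 0 < 4 * L * K := by positivity
    rw [← le_sub_iff_add_le, div_le_iff₀ h60]
    nlinarith [mul_pos hL0 hK0]
  have h60 : 0 ≤ (L * (4 * L * K) + 1) / (4 * L * K) + 1 := by positivity
  have h7 : L / (4 * L * K) = 1 / (4 * K) := by field_simp
  have h8 : 480 * ((L * (4 * L * K) + 1) / (4 * L * K) + 1) * (L / (4 * L * K))
      ≤ (1 / 100) ^ 2 := by
    rw [h7]
    calc _ ≤ 480 * (3 * L) * (1 / (4 * K)) := by
          apply mul_le_mul_of_nonneg_right _ (by positivity)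
          linarith
      _ = 360 * L / K := by ring
      _ ≤ (1 / 100) ^ 2 := by
          rw [div_le_iff₀ hK0]; nlinarith
  have h9 : Real.sqrt (480 * ((L * (4 * L * K) + 1) / (4 * L * K) + 1) *
      (L / (4 * L * K))) ≤ 1 / 100 := Real.sqrt_le_iff.2 ⟨by norm_num, h8⟩
  have h10 : ((L * (4 * L * K) + 1) / (4 * L * K) + 1) * β ≤ 1 / 100 := by
    calc _ ≤ ((L * (4 * L * K) + 1) / (4 * L * K) + 1) * (1 / (300 * L)) :=
          mul_le_mul_of_nonneg_left hβ h60
      _ ≤ (3 * L) * (1 / (300 * L)) := mul_le_mul_of_nonneg_right h6 (by positivity)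
      _ = 1 / 100 := by field_simp; norm_num
  have h11 : (L * (4 * L * K) + 1) / ρ ≤ 1 / 100 := by
    refine h2a.trans ?_
    rw [div_le_div_iff₀ (by positivity) (by norm_num)]
    nlinarith
  have h12 : 1 / (4 * L * K) ≤ 1 / 100 := by
    rw [div_le_div_iff₀ (by positivity) (by norm_num)]
    nlinarith
  linarith

/-- the level of a point -/
def lev {Bl : ℕ → Block} : (Σ n, BPt (Bl n)) → ℕ
  | ⟨_, .tip _ _⟩ => 0
  | ⟨_, .sheet i _ _⟩ => i

theorem main : ∃ (M : Type) (_ : MetricSpace M) (o : M),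
    UniformlyDiscrete M ∧ ¬ HasBAP (LipFree M o) := by
  have hb : ∀ n : ℕ, ∃ B : Block,
      16 * ((n : ℝ) + 1) * parK n ^ 2 ≤ B.ρ ∧ B.β ≤ 1 / (300 * ((n : ℝ) + 1)) := fun n =>
    exists_block _ _ (by have := one_le_cast n; positivity)
  choose Bl hρ hβ using hb
  have hρR : ∀ n, parR n ≤ (Bl n).ρ := by
    intro n
    refine le_trans ?_ (hρ n)
    unfold parR
    have h1 := one_le_cast n
    have h2 := le_parK n
    have h3 : 0 < ((n : ℝ) + 1) * parK n := by positivity
    nlinarith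
  have hR1 : ∀ n, 1 ≤ parR n := fun n => by
    have h1 := parR_ge n
    have h2 := le_parK n
    linarith
  let D : EdgeData (Σ n, BPt (Bl n)) :=
    { B := fun z => (Bl z.1).ρ
      E := TEdge Bl parK parR
      one_le_B := fun z => (hR1 z.1).trans (hρR z.1)
      one_le_w := by
        intro u v w h
        cases h with
        | mk n u v w h =>
          cases h with
          | move => exact le_rfl
          | toggle => have := le_parK n; linarith
          | arm => exact hR1 n }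
  refine ⟨Σ n, BPt (Bl n), D.metric, ⟨0, .tip 1 ∅⟩, ?_, ?_⟩
  · exact ⟨1, one_pos, fun x y h => D.one_le_d h⟩
  · rintro ⟨lam, hlam1, hlam⟩
    obtain ⟨n, hn⟩ := exists_nat_ge lam
    set L : ℝ := (n : ℝ) + 1 with hLdef
    have hL1 : 1 ≤ L := one_le_cast n
    have hlamL : lam ≤ L := by linarith
    let _ : MetricSpace (Σ n, BPt (Bl n)) := D.metric
    -- extension of block-admissible functions
    have hadm : ∀ f : BPt (Bl n) → ℝ, BAdm (Bl n) (parK n) (parR n) f →
        D.Adm (extZ Bl n f) := by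
      intro f hf
      refine ⟨?_, ?_⟩
      · rintro ⟨k, u⟩
        rcases eq_or_ne k n with rfl | h
        · rw [extZ_same]; exact hf.1 u
        · rw [extZ_ne Bl h, abs_zero]; exact zero_le_one.trans (D.one_le_B ⟨k, u⟩)
      · intro u v w h
        have hw := D.one_le_w u v w h
        cases h with
        | mk k u v w h =>
          rcases eq_or_ne k n with rfl | hk
          · rw [extZ_same, extZ_same]; exact hf.2 u v w h
          · rw [extZ_ne Bl hk, extZ_ne Bl hk, sub_zero, abs_zero]; linarith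
    have hlip : ∀ f : BPt (Bl n) → ℝ, BAdm (Bl n) (parK n) (parR n) f →
        ∀ u v, |extZ Bl n f u - extZ Bl n f v| ≤ 1 * dist u v := by
      intro f hf u v
      rw [one_mul]
      exact D.le_d (hadm f hf) u v
    let S : Set (Σ n, BPt (Bl n)) :=
      Set.range fun t : (Bl n).Q × Finset (Bl n).Q => ⟨n, .tip t.1 t.2⟩
    have hS : S.Finite := Set.finite_range _
    obtain ⟨τ, T1, T2, T3⟩ := exists_tau _ hlam S hS 1 one_pos
    have hnum := numbers L (parK n) (Bl n).ρ (Bl n).β hL1 rfl (hρ n) (hβ n)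
    have h2 := le_parK n
    have hKpos : 0 < parK n := by linarith
    refine (Bl n).contradiction (K := parK n) (r := parR n) (L := L) hL1 (by linarith)
      (hR1 n) ?_ (hρR n) ?_ ?_ hnum.1 hnum.2 (fun u => (τ ⟨n, u⟩).comp (extZ Bl n)) ?_ ?_ ?_
    · have := parR_ge n; linarith
    · refine (hβ n).trans ?_
      rw [div_le_div_iff₀ (by positivity) (by norm_num)]
      linarith
    · have : parR n = 4 * L * parK n := rfl
      rw [this]
      have : L * parK n / (4 * L * parK n) = 1 / 4 := by field_simp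
      rw [this]
    · -- S1
      intro f hf u v w h
      have h3 := T1 ⟨n, u⟩ ⟨n, v⟩ _ 1 zero_le_one (hlip f hf)
      have h4 : dist (⟨n, u⟩ : Σ n, BPt (Bl n)) ⟨n, v⟩ ≤ w := D.d_edge (TEdge.mk n u v w h)
      refine h3.trans ?_
      rw [one_mul]
      exact mul_le_mul hlamL h4 dist_nonneg (by linarith)
    · -- S2
      intro f hf a θ
      have h3 := T2 ⟨n, .tip a θ⟩ ⟨(a, θ), rfl⟩ _ 1 zero_le_one (hlip f hf)
      rw [extZ_same, mul_one] at h3
      exact h3
    · -- S3
      obtain ⟨A, hA, hT⟩ := T3 1 one_pos ((Bl n).ρ + (Bl 0).ρ)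
      obtain ⟨m, hm⟩ := (hA.image lev).bddAbove
      refine ⟨m + 1, fun f hf ht hs z => ?_⟩
      have h3 := hT ⟨n, z⟩ (D.d_le_B _ _) (extZ Bl n f) 1 zero_le_one (hlip f hf) ?_
      · rw [mul_one] at h3; exact h3
      · rintro ⟨k, u⟩ ha
        rcases eq_or_ne k n with rfl | h
        · rw [extZ_same]
          cases u with
          | tip a θ => exact ht a θ
          | sheet i y θ =>
            have := hm ⟨_, ha, rfl⟩
            exact hs i y θ (Nat.lt_succ_of_le this)
        · exact extZ_ne Bl h f u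

end Vale.Agent.P090
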