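import Vale.Agent.Lib.P090.Defs

/-!
P090: functionals extracted from a finite-rank operator on the Lipschitz-free space.
-/

namespace Vale.Agent.P090

/-- evaluation as an element of the dual -/
noncomputable def evalD {M : Type*} [MetricSpace M] (o x : M) : StrongDual ℝ (Lip0 M o) :=
  evalAt o x

/-- the free space as a submodule of the dual -/
noncomputable def LipFreeSub (M : Type*) [MetricSpace M] (o : M) :
    Submodule ℝ (StrongDual ℝ (Lip0 M o)) :=
  (Submodule.span ℝ (Set.range (evalD o))).topologicalClosure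

section

variable {M : Type*} [MetricSpace M] {o : M}

theorem abs_apply_le (v : StrongDual ℝ (Lip0 M o)) (g : Lip0 M o) : |v g| ≤ ‖v‖ * ‖g‖ :=
  v.le_opNorm g

theorem norm_evalAt_sub_le (x y : M) : ‖evalD o x - evalD o y‖ ≤ dist x y := by
  refine ContinuousLinearMap.opNorm_le_bound _ dist_nonneg fun f => ?_
  have h := abs_sub_le f x y
  rw [mul_comm] at h
  exact h

theorem norm_evalAt_le (x : M) : ‖evalD o x‖ ≤ dist x o := by
  refine ContinuousLinearMap.opNorm_le_bound _ dist_nonneg fun f => ?_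
  have h := abs_sub_le f x o
  rw [f.map_base, sub_zero, mul_comm] at h
  exact h

/-- evaluation as an element of the free space -/
noncomputable def delta (o x : M) : LipFreeSub M o :=
  ⟨evalD o x, Submodule.le_topologicalClosure _ (Submodule.subset_span ⟨x, rfl⟩)⟩

theorem norm_delta_sub_le (x y : M) : ‖delta o x - delta o y‖ ≤ dist x y :=
  norm_evalAt_sub_le x y

theorem norm_delta_le (x : M) : ‖delta o x‖ ≤ dist x o :=
  norm_evalAt_le x

variable (M) in
/-- all Lipschitz functions -/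
def lipAll : Submodule ℝ (M → ℝ) where
  carrier := {f | ∃ K : ℝ, ∀ x y, |f x - f y| ≤ K * dist x y}
  zero_mem' := ⟨0, by simp⟩
  add_mem' := by
    rintro f g ⟨K, hK⟩ ⟨L, hL⟩
    refine ⟨K + L, fun x y => ?_⟩
    calc |(f + g) x - (f + g) y| = |(f x - f y) + (g x - g y)| := by
          simp only [Pi.add_apply]; ring_nf
      _ ≤ |f x - f y| + |g x - g y| := abs_add_le _ _
      _ ≤ (K + L) * dist x y := by rw [add_mul]; exact add_le_add (hK x y) (hL x y)
  smul_mem' := by
    rintro c f ⟨K, hK⟩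
    refine ⟨|c| * K, fun x y => ?_⟩
    calc |(c • f) x - (c • f) y| = |c| * |f x - f y| := by
          rw [← abs_mul]; simp only [Pi.smul_apply, smul_eq_mul]; ring_nf
      _ ≤ |c| * (K * dist x y) := mul_le_mul_of_nonneg_left (hK x y) (abs_nonneg c)
      _ = |c| * K * dist x y := by ring

variable (o) in
/-- subtract the value at the base point -/
def toLip0 : lipAll M →ₗ[ℝ] Lip0 M o where
  toFun f := ⟨fun x => f.1 x - f.1 o, sub_self _, by
    obtain ⟨K, hK⟩ := f.2
    exact ⟨K, fun x y => by simpa using hK x y⟩⟩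
  map_add' f g := by
    apply Lip0.ext
    funext x
    change (f.1 x + g.1 x) - (f.1 o + g.1 o) = (f.1 x - f.1 o) + (g.1 x - g.1 o)
    ring
  map_smul' c f := by
    apply Lip0.ext
    funext x
    change (c * f.1 x) - (c * f.1 o) = c * (f.1 x - f.1 o)
    ring

theorem norm_toLip0_le (f : lipAll M) {Λ : ℝ} (h0 : 0 ≤ Λ)
    (h : ∀ x y, |f.1 x - f.1 y| ≤ Λ * dist x y) : ‖toLip0 o f‖ ≤ Λ := by
  refine norm_le_of h0 fun x y => ?_
  have : (toLip0 o f).toFun x - (toLip0 o f).toFun y = f.1 x - f.1 y := by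
    change (f.1 x - f.1 o) - (f.1 y - f.1 o) = _
    ring
  rw [this]
  exact h x y

/-- the functional `f ↦ f o + u (f - f o)` on Lipschitz functions -/
noncomputable def functionalOf (u : LipFreeSub M o) : lipAll M →ₗ[ℝ] ℝ where
  toFun f := f.1 o + u.1 (toLip0 o f)
  map_add' f g := by
    rw [map_add, map_add]
    change (f.1 o + g.1 o) + _ = _
    ring
  map_smul' c f := by
    rw [map_smul, map_smul]
    change c * f.1 o + c * _ = c * _
    ring

end

theorem exists_tau_aux {M : Type*} [MetricSpace M] (o : M) {lam : ℝ}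
    (hlam : HasLambdaBAP (LipFreeSub M o) lam) (S : Set M) (hS : S.Finite) (ε0 : ℝ)
    (h0 : 0 < ε0) :
    ∃ τ : M → ((M → ℝ) →ₗ[ℝ] ℝ),
      (∀ x x' (f : M → ℝ) (Λ : ℝ), 0 ≤ Λ → (∀ u v, |f u - f v| ≤ Λ * dist u v) →
        |τ x f - τ x' f| ≤ lam * (Λ * dist x x')) ∧
      (∀ t ∈ S, ∀ (f : M → ℝ) (Λ : ℝ), 0 ≤ Λ → (∀ u v, |f u - f v| ≤ Λ * dist u v) →
        |τ t f - f t| ≤ ε0 * Λ) ∧
      (∀ ε' > 0, ∀ R : ℝ, ∃ A : Set M, A.Finite ∧ ∀ x, dist x o ≤ R →
        ∀ (f : M → ℝ) (Λ : ℝ), 0 ≤ Λ → (∀ u v, |f u - f v| ≤ Λ * dist u v) →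
        (∀ a ∈ A, f a = 0) → |τ x f| ≤ ε' * Λ) := by
  obtain ⟨T, hfin, hT, hTS⟩ := hlam (delta o '' S) (hS.image _).isCompact ε0 h0
  have hlam0 : 0 ≤ lam := (norm_nonneg T).trans hT
  -- extension to all functions
  have hext : ∀ x : M, ∃ g : (M → ℝ) →ₗ[ℝ] ℝ,
      g ∘ₗ (lipAll M).subtype = functionalOf (T (delta o x)) := fun x =>
    LinearMap.exists_extend _
  choose τ hτ using hext
  have hτ' : ∀ x (f : lipAll M), τ x f.1 = f.1 o + (T (delta o x)).1 (toLip0 o f) := by
    intro x f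
    have := congrArg (fun g => g f) (hτ x)
    exact this
  refine ⟨τ, ?_, ?_, ?_⟩
  · intro x x' f Λ hΛ hf
    let F : lipAll M := ⟨f, Λ, hf⟩
    have h1 := hτ' x F
    have h2 := hτ' x' F
    change τ x f = _ at h1
    change τ x' f = _ at h2
    have h3 : τ x f - τ x' f = (T (delta o x - delta o x')).1 (toLip0 o F) := by
      have h4 : T (delta o x - delta o x') = T (delta o x) - T (delta o x') :=
        T.map_sub (delta o x) (delta o x')
      rw [h1, h2, h4]
      change _ = (T (delta o x)).1 (toLip0 o F) - (T (delta o x')).1 (toLip0 o F)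
      ring
    rw [h3]
    calc |(T (delta o x - delta o x')).1 (toLip0 o F)|
        ≤ ‖(T (delta o x - delta o x')).1‖ * ‖toLip0 o F‖ := abs_apply_le _ _
      _ ≤ (lam * dist x x') * Λ := by
          apply mul_le_mul _ (norm_toLip0_le F hΛ hf) (norm_nonneg _)
            (mul_nonneg hlam0 dist_nonneg)
          calc ‖T (delta o x - delta o x')‖ ≤ ‖T‖ * ‖delta o x - delta o x'‖ :=
                T.le_opNorm _
            _ ≤ lam * dist x x' :=
                mul_le_mul hT (norm_delta_sub_le x x')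
                  (norm_nonneg (delta o x - delta o x')) hlam0
      _ = lam * (Λ * dist x x') := by ring
  · intro t ht f Λ hΛ hf
    let F : lipAll M := ⟨f, Λ, hf⟩
    have h1 := hτ' t F
    change τ t f = _ at h1
    have h3 : τ t f - f t = (T (delta o t) - delta o t).1 (toLip0 o F) := by
      rw [h1]
      change f o + (T (delta o t)).1 (toLip0 o F) - f t
        = (T (delta o t)).1 (toLip0 o F) - (f t - f o)
      ring
    rw [h3]
    calc |(T (delta o t) - delta o t).1 (toLip0 o F)|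
        ≤ ‖(T (delta o t) - delta o t).1‖ * ‖toLip0 o F‖ := abs_apply_le _ _
      _ ≤ ε0 * Λ :=
          mul_le_mul (hTS _ ⟨t, ht, rfl⟩).le (norm_toLip0_le F hΛ hf) (norm_nonneg _) h0.le
  · intro ε' hε' R
    -- compactness in the range of T
    have : FiniteDimensional ℝ (LinearMap.range (T : LipFreeSub M o →ₗ[ℝ] LipFreeSub M o)) := hfin
    have : ProperSpace (LinearMap.range (T : LipFreeSub M o →ₗ[ℝ] LipFreeSub M o)) :=
      FiniteDimensional.proper ℝ _
    have hc : IsCompact (Metric.closedBall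
        (0 : LinearMap.range (T : LipFreeSub M o →ₗ[ℝ] LipFreeSub M o)) (lam * R)) :=
      isCompact_closedBall _ _
    obtain ⟨N, hNfin, hN⟩ := Metric.totallyBounded_iff.1 hc.totallyBounded (ε' / 2)
      (half_pos hε')
    -- each net point is approximated by a finite combination
    have happ : ∀ u : LipFreeSub M o, ∃ A : Set M, A.Finite ∧ ∃ v : StrongDual ℝ (Lip0 M o),
        (∀ g : Lip0 M o, (∀ a ∈ A, g.toFun a = 0) → v g = 0) ∧ ‖u.1 - v‖ < ε' / 2 := by
      intro u
      have hu0 := u.2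
      change u.1 ∈ (Submodule.span ℝ (Set.range (evalD o))).topologicalClosure at hu0
      have hu : u.1 ∈ closure
          ((Submodule.span ℝ (Set.range (evalD o)) : Submodule ℝ _) : Set _) := by
        rwa [← SetLike.mem_coe, Submodule.topologicalClosure_coe] at hu0
      obtain ⟨v, hv, hd⟩ := Metric.mem_closure_iff.1 hu (ε' / 2) (half_pos hε')
      obtain ⟨c, hc⟩ := (Finsupp.mem_span_range_iff_exists_finsupp).1 hv
      refine ⟨c.support, c.support.finite_toSet, v, ?_, by rw [← dist_eq_norm]; exact hd⟩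
      intro g hg
      rw [← hc, Finsupp.sum, sum_apply]
      refine Finset.sum_eq_zero fun i hi => ?_
      change c i * g.toFun i = 0
      rw [hg i hi, mul_zero]
    choose A hA v hv hd using happ
    refine ⟨(⋃ u ∈ N, A u.1) ∪ {o}, ?_, ?_⟩
    · exact (hNfin.biUnion fun u _ => hA _).union (Set.finite_singleton o)
    · intro x hx f Λ hΛ hf hvan
      let F : lipAll M := ⟨f, Λ, hf⟩
      have h1 := hτ' x F
      have hfo : f o = 0 := hvan o (Or.inr rfl)
      change τ x f = f o + _ at h1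
      rw [hfo, zero_add] at h1
      let w : LinearMap.range (T : LipFreeSub M o →ₗ[ℝ] LipFreeSub M o) :=
        ⟨T (delta o x), ⟨delta o x, rfl⟩⟩
      have hw : w ∈ Metric.closedBall
          (0 : LinearMap.range (T : LipFreeSub M o →ₗ[ℝ] LipFreeSub M o)) (lam * R) := by
        rw [mem_closedBall_zero_iff]
        change ‖T (delta o x)‖ ≤ _
        calc ‖T (delta o x)‖ ≤ ‖T‖ * ‖delta o x‖ := T.le_opNorm _
          _ ≤ lam * R := mul_le_mul hT ((norm_delta_le x).trans hx)
            (norm_nonneg (delta o x)) hlam0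
      obtain ⟨u, huN, hu⟩ := Set.mem_iUnion₂.1 (hN hw)
      rw [Metric.mem_ball, dist_eq_norm] at hu
      have hu' : ‖T (delta o x) - u.1‖ < ε' / 2 := hu
      have hv0 : v u.1 (toLip0 o F) = 0 := by
        refine hv u.1 _ fun a ha => ?_
        change f a - f o = 0
        rw [hfo, sub_zero]
        exact hvan a (Or.inl (Set.mem_iUnion₂.2 ⟨u, huN, ha⟩))
      rw [h1]
      have h5 : (T (delta o x)).1 (toLip0 o F)
          = ((T (delta o x)).1 - v u.1) (toLip0 o F) := by
        change _ = (T (delta o x)).1 (toLip0 o F) - v u.1 (toLip0 o F)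
        rw [hv0, sub_zero]
      rw [h5]
      have h9 : ‖((T (delta o x)).1 - v u.1) (toLip0 o F)‖
          ≤ ‖(T (delta o x)).1 - v u.1‖ * ‖toLip0 o F‖ :=
        ContinuousLinearMap.le_opNorm ((T (delta o x)).1 - v u.1) (toLip0 o F)
      calc |((T (delta o x)).1 - v u.1) (toLip0 o F)|
          ≤ ‖(T (delta o x)).1 - v u.1‖ * ‖toLip0 o F‖ := h9
        _ ≤ ε' * Λ := by
          apply mul_le_mul _ (norm_toLip0_le F hΛ hf) (norm_nonneg _) hε'.le
          have h6 : (T (delta o x)).1 - v u.1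
              = ((T (delta o x)).1 - u.1.1) + (u.1.1 - v u.1) := by abel
          rw [h6]
          have h7 : ‖(T (delta o x)).1 - u.1.1‖ < ε' / 2 := hu'
          have h8 := hd u.1
          calc _ ≤ ‖(T (delta o x)).1 - u.1.1‖ + ‖u.1.1 - v u.1‖ := norm_add_le _ _
            _ ≤ ε' := by linarith

theorem exists_tau {M : Type*} [MetricSpace M] (o : M) {lam : ℝ}
    (hlam : HasLambdaBAP (LipFree M o) lam) (S : Set M) (hS : S.Finite) (ε0 : ℝ)
    (h0 : 0 < ε0) :
    ∃ τ : M → ((M → ℝ) →ₗ[ℝ] ℝ),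
      (∀ x x' (f : M → ℝ) (Λ : ℝ), 0 ≤ Λ → (∀ u v, |f u - f v| ≤ Λ * dist u v) →
        |τ x f - τ x' f| ≤ lam * (Λ * dist x x')) ∧
      (∀ t ∈ S, ∀ (f : M → ℝ) (Λ : ℝ), 0 ≤ Λ → (∀ u v, |f u - f v| ≤ Λ * dist u v) →
        |τ t f - f t| ≤ ε0 * Λ) ∧
      (∀ ε' > 0, ∀ R : ℝ, ∃ A : Set M, A.Finite ∧ ∀ x, dist x o ≤ R →
        ∀ (f : M → ℝ) (Λ : ℝ), 0 ≤ Λ → (∀ u v, |f u - f v| ≤ Λ * dist u v) →
        (∀ a ∈ A, f a = 0) → |τ x f| ≤ ε' * Λ) :=
  exists_tau_aux (lam := lam) o hlam S hS ε0 h0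

end Vale.Agent.P090
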